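import Vale.Agent.P097.H500.Core

attribute [-instance] ProperSMul.toContinuousSMul IsTopologicalTorsor.toContinuousSMul IdemSemiring.toCanonicallyOrderedAdd IdemSemiring.toMulLeftMono IdemSemiring.toMulRightMono AddQuantale.instAddLeftMono AddQuantale.instAddRightMono Quantale.instMulLeftMono Quantale.instMulRightMono FiniteDimensional.rclike_to_real IsScalarTower.complexToReal FiniteDimensional.complexToReal

set_option linter.all false

/-! # P097, uniform regularity from finitely many derivatives -/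

namespace Vale.Agent.P097.H407

open Complex Filter Topology Vale.Agent.P097.Reg Vale.Agent.P097.Reg.R13 Vale.Agent.P097.H500
open scoped ComplexConjugate ContDiff

/-- finitely many bounds extend to all orders -/
theorem exists_ext {h : ℝ → ℝ} (hs : ContDiff ℝ ∞ h) (hp : ∀ x, h (x + 2 * Real.pi) = h x)
    {A : ℕ → ℝ} {k : ℕ} (hA : ∀ i ≤ k, ∀ x, |deriv^[i] h x| ≤ A i) :
    ∃ A' : ℕ → ℝ, (∀ (i : ℕ) (x : ℝ), |deriv^[i] h x| ≤ A' i) ∧ ∀ i ≤ k, A' i = A i := by
  have hb : ∀ i : ℕ, ∃ B : ℝ, ∀ x, |deriv^[i] h x| ≤ B := by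
    intro i
    have hc : Continuous (deriv^[i] h) := (hs.iterate_deriv i).continuous
    have hper : Function.Periodic (deriv^[i] h) (2 * Real.pi) := R4.per_iter hp i
    obtain ⟨B, hB⟩ := isCompact_Icc.exists_bound_of_continuousOn
      (s := Set.Icc (0 : ℝ) (2 * Real.pi)) hc.continuousOn
    refine ⟨B, fun x => ?_⟩
    obtain ⟨y, hy, hxy⟩ := hper.exists_mem_Ico₀ Real.two_pi_pos x
    rw [hxy]
    exact hB y ⟨hy.1, hy.2.le⟩
  choose B hB using hb
  refine ⟨fun i => if i ≤ k then A i else B i, fun i x => ?_, fun i hi => if_pos hi⟩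
  show |deriv^[i] h x| ≤ (if i ≤ k then A i else B i)
  by_cases hi : i ≤ k
  · rw [if_pos hi]; exact hA i hi x
  · rw [if_neg hi]; exact hB i x

/-- approximation from finitely many bounds -/
theorem exists_approx_fin (A : ℕ → ℝ) : ∃ C0 : ℝ, 1 ≤ C0 ∧ ∀ N : ℕ, ∃ CN : ℝ, 1 ≤ CN ∧
    ∀ h : ℝ → ℝ, ContDiff ℝ ∞ h → (∀ x, h (x + 2 * Real.pi) = h x) →
      (∀ i ≤ N + 7, ∀ x, |deriv^[i] h x| ≤ A i) → App C0 CN N h := by
  obtain ⟨Z, hZ⟩ : ∃ Z : ℝ, Z = ∑' m : ℤ, 1 / (m : ℝ) ^ 2 := ⟨_, rfl⟩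
  have hZ0 : 0 ≤ Z := by rw [hZ]; exact tsum_nonneg fun m => by positivity
  have hS : ∀ i : ℕ, 0 ≤ Real.exp 1 * (|A i| + |A (i + 2)| * Z) := fun i => by positivity
  refine ⟨1 + ∑ i ∈ Finset.range 6, Real.exp 1 * (|A i| + |A (i + 2)| * Z), ?_, ?_⟩
  · have : 0 ≤ ∑ i ∈ Finset.range 6, Real.exp 1 * (|A i| + |A (i + 2)| * Z) :=
      Finset.sum_nonneg fun i _ => hS i
    linarith only [this]
  · intro N
    have hC0 : ∀ i : ℕ, 0 ≤ |A (i + (N + 2))| * Z := fun i => by positivity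
    refine ⟨1 + ∑ i ∈ Finset.range 3, |A (i + (N + 2))| * Z, ?_, fun h hs hp hA n hn => ?_⟩
    · have : 0 ≤ ∑ i ∈ Finset.range 3, |A (i + (N + 2))| * Z :=
        Finset.sum_nonneg fun i _ => hC0 i
      linarith only [this]
    · obtain ⟨A', hA', hAe⟩ := exists_ext hs hp hA
      have H : Cls A' h := ⟨hs, hp, hA'⟩
      refine ⟨R4.tp (R4.cf h) n, fun z => (R4.tp_hasDerivAt _ n z).differentiableAt,
        R4.tp_conj (R4.cf_conj h) n, R4.tp_per _ n, ?_, ?_⟩
      · intro i hi z hz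
        rw [R4.tp_iter]
        have e : (fun m : ℤ => (I * m) ^ i * R4.cf h m) = R4.cf (deriv^[i] h) := by
          ext m; rw [R4.cf_iter hs hp]
        rw [e]
        have h1 := R4.tp_norm (R4.cf_summable hs hp i) hn hz
        have h0 := sum_u H i
        rw [← hZ, hAe i (by omega), hAe (i + 2) (by omega)] at h0
        have h2 := Finset.single_le_sum (s := Finset.range 6)
          (f := fun i => Real.exp 1 * (|A i| + |A (i + 2)| * Z))
          (fun j _ => hS j) (Finset.mem_range.mpr (by omega : i < 6))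
        have h3 := mul_le_mul_of_nonneg_left h0 (Real.exp_pos 1).le
        linarith only [h1, h2, h3]
      · intro i hi x
        have h1 := tail_u hs hp i N (abs_nonneg _) (decay_u H i (N + 2)) n hn x
        rw [← hZ, hAe (i + (N + 2)) (by omega)] at h1
        have h2 := Finset.single_le_sum (s := Finset.range 3)
          (f := fun i => |A (i + (N + 2))| * Z) (fun j _ => hC0 j)
          (Finset.mem_range.mpr (by omega : i < 3))
        have hn0 : (0:ℝ) < n := by exact_mod_cast hn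
        refine h1.trans ?_
        gcongr
        linarith only [h2]

/-- the iteration with uniform constants, from finitely many approximation hypotheses -/
theorem core_fin {C0 c0 : ℝ} (hC0 : 1 ≤ C0) (hc0 : 0 < c0) (CF : ℕ → ℝ) (hCF : ∀ N, 1 ≤ CF N)
    (q0 : ℕ) : ∃ (N0 : ℕ) (β' M' : ℝ), 0 < β' ∧ 1 ≤ M' ∧ ∀ h : ℝ → ℝ, ContDiff ℝ ∞ h →
      (∀ x, h (x + 2 * Real.pi) = h x) → (∀ x, 2 * c0 ≤ rad h x) →
      (∀ n, q0 ≤ n → Cst h n) → (∀ N ≤ N0, App C0 (CF N) N h) →
      ∃ H : ℂ → ℂ, DifferentiableOn ℂ H {z : ℂ | |z.im| < β'} ∧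
        (∀ z : ℂ, |z.im| < β' → ‖H z‖ ≤ M') ∧ ∀ x : ℝ, H x = h x := by
  obtain ⟨M, hM, κ, hκ, b0, hb0, hB⟩ := exists_base C0 c0 hC0 hc0
  obtain ⟨C, hC, hN⟩ := newton_u hC0 (hCF (2 * 130)) q0 (M + 2) (by linarith only [hM])
  obtain ⟨K, hK1, hK⟩ := exists_K
  set A : ℝ := 1000000 * C ^ 2 * K with hAdef
  have hA1 : 1 ≤ A := by
    have h1 : 1 ≤ C ^ 2 := by nlinarith only [hC]
    have h2 : 1 ≤ C ^ 2 * K := by nlinarith only [h1, hK1]
    rw [hAdef]; linarith
  obtain ⟨N, hNA⟩ := exists_nat_ge (2 * A)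
  have hN1 : 1 ≤ N := by
    have : (1 : ℝ) ≤ N := by linarith only [hA1, hNA]
    exact_mod_cast this
  set CN : ℝ := CF N with hCNdef
  have hCN : 1 ≤ CN := hCF N
  have hlog : Tendsto (fun n : ℕ => Real.log (n : ℝ)) atTop atTop :=
    Real.tendsto_log_atTop.comp tendsto_natCast_atTop_atTop
  obtain ⟨n, hn1, hn2, hn3, hn4⟩ : ∃ n : ℕ, 1 ≤ n ∧ 1 / b0 ≤ (n : ℝ) ∧ 2 * CN / c0 ≤ (n : ℝ) ∧
      A * (1 + Real.log (2 / κ)) + Real.log CN ≤ Real.log n := by
    have e1 := (tendsto_natCast_atTop_atTop (R := ℝ)).eventually_ge_atTop (1 / b0)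
    have e2 := (tendsto_natCast_atTop_atTop (R := ℝ)).eventually_ge_atTop (2 * CN / c0)
    have e3 := hlog.eventually_ge_atTop (A * (1 + Real.log (2 / κ)) + Real.log CN)
    exact ((eventually_ge_atTop 1).and (e1.and (e2.and e3))).exists
  have hn0 : (1 : ℝ) ≤ n := by exact_mod_cast hn1
  have hnpos : (0 : ℝ) < n := by linarith only [hn0]
  set E0 : ℝ := CN / (n : ℝ) ^ N with hE0
  have hE0pos : 0 < E0 := by rw [hE0]; (clear * - hCN hn1; positivity)
  have hE0c : E0 ≤ c0 / 2 := by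
    rw [hE0, div_le_iff₀ (by positivity)]
    have h1 : (n : ℝ) ≤ (n : ℝ) ^ N := le_self_pow₀ hn0 (by omega)
    rw [div_le_iff₀ hc0] at hn3
    calc CN ≤ c0 / 2 * n := by linarith only [hn3]
      _ ≤ c0 / 2 * (n : ℝ) ^ N := mul_le_mul_of_nonneg_left h1 (by linarith only [hc0])
  refine ⟨max (2 * 130) N, κ * (1 / n) / (4 * (M + 2)), M + 2 + ∑' k : ℕ, Real.exp (-(k : ℝ)), ?_, ?_, ?_⟩
  · positivity
  · have : 0 ≤ ∑' k : ℕ, Real.exp (-(k : ℝ)) := tsum_nonneg fun k => (Real.exp_pos _).le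
    linarith only [this, hM]
  intro h hs hp hlow hcst hA
  have hpos : ∀ x, 0 < rad h x := fun x => by
    have := hlow x
    linarith only [this, hc0]
  have hN := hN h hs hp hpos hcst (hA (2 * 130) (le_max_left _ _))
  obtain ⟨G, hG1, hG2, hG3, hG4, hG5⟩ := hA N (le_max_right _ _) n hn1
  rw [← hCNdef, ← hE0] at hG5
  have hrad : ∀ x : ℝ, c0 ≤ (G x + deriv (deriv G) x).re := by
    intro x
    have h1 := hG5 0 (by norm_num) x
    have h2 := hG5 2 le_rfl x
    have h3 := hlow x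
    simp only [Function.iterate_zero, id_eq] at h1
    have e2 : deriv^[2] h x = deriv (deriv h) x := rfl
    have e2' : deriv^[2] G x = deriv (deriv G) x := rfl
    rw [e2, e2'] at h2
    rw [abs_le] at h1 h2
    unfold rad at h3
    rw [add_re]
    linarith only [hE0c, h1, h2, h3]
  obtain ⟨P, T, hTG, -⟩ := hB (1 / n) (by (clear * - hn1; positivity))
    (by rw [div_le_iff₀ hnpos]; rw [div_le_iff₀ hb0] at hn2; linarith only [hn2]) G hG1 hG2 hG3 hG4 hrad
  have hb := T.β0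
  have hb1 := T.β1
  have hL : 1000000 * C ^ 2 * K * (1 + Real.log (2 / (κ * (1 / n)))) ≤ -Real.log E0 := by
    rw [← hAdef]
    have e1 : 2 / (κ * (1 / (n : ℝ))) = (2 / κ) * n := by (clear * - hn1 hκ; field_simp)
    have e2 : Real.log (2 / κ * n) = Real.log (2 / κ) + Real.log n :=
      Real.log_mul (by positivity) (by (clear * - hn1; positivity))
    have e3 : Real.log E0 = Real.log CN - N * Real.log n := by
      rw [hE0, Real.log_div (by positivity) (by positivity), Real.log_pow]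
    rw [e1, e2, e3]
    have hl0 : 0 ≤ Real.log (n : ℝ) := Real.log_nonneg hn0
    have h1 : 2 * A * Real.log n ≤ N * Real.log n := mul_le_mul_of_nonneg_right hNA hl0
    have h2 : Real.log n ≤ A * Real.log n := le_mul_of_one_le_left hl0 hA1
    (clear * - hn4 h1 h2; linarith)
  -- closeness
  have hclose : Close T h E0 := by
    have hdf : df T h = fun x : ℝ => h x - (G x).re := by
      funext x; unfold df; rw [hTG]
    have hh1 : ∀ x, HasDerivAt h (deriv h x) x := fun x =>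
      (hs.differentiable (by norm_num) x).hasDerivAt
    have hh2 : ∀ x, HasDerivAt (deriv h) (deriv (deriv h) x) x := fun x =>
      ((contDiff_deriv hs).differentiable (by norm_num) x).hasDerivAt
    have hG' : Differentiable ℂ (deriv G) := hG1.deriv
    have hg1 : ∀ x : ℝ, HasDerivAt (fun x : ℝ => (G x).re) (deriv G x).re x := fun x =>
      (hG1 x).hasDerivAt.real_of_complex
    have hg2 : ∀ x : ℝ, HasDerivAt (fun x : ℝ => (deriv G x).re) (deriv (deriv G) x).re x :=
      fun x => (hG' x).hasDerivAt.real_of_complex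
    have hd1 : deriv (df T h) = fun x : ℝ => deriv h x - (deriv G x).re := by
      funext x
      rw [hdf]
      exact ((hh1 x).sub (hg1 x)).deriv
    have hd2 : deriv (deriv (df T h)) = fun x : ℝ => deriv (deriv h) x - (deriv (deriv G) x).re := by
      funext x
      rw [hd1]
      exact ((hh2 x).sub (hg2 x)).deriv
    intro x
    rw [hd2, hd1, hdf]
    exact ⟨hG5 0 (by norm_num) x, hG5 1 (by norm_num) x, hG5 2 le_rfl x⟩
  let s0 : Sg := ⟨M, κ * (1 / n), P, T⟩
  have h0 : Gd h M (κ * (1 / n)) E0 0 s0 := by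
    refine ⟨by simp [s0], by simp only [one_div, pp, Finset.range_zero, Finset.prod_empty, mul_one, s0], ?_⟩
    have : R13.EE E0 0 = E0 := by unfold R13.EE; simp
    rw [this]; exact hclose
  obtain ⟨f, hf1, hf2⟩ := exists_chain hN le_rfl hC hK hE0pos hb hb1 hL s0 h0
  exact strip_of_chain le_rfl hM hC hK1 hK hE0pos hb hb1 hL f hf1 hf2

/-- [R] with finitely many derivatives: the number of derivatives depends on the bounds. -/
theorem stR_fin (η c : ℝ) (A : ℕ → ℝ) (hη : 0 < η) (hc : 0 < c) : ∃ (k : ℕ) (β M : ℝ), 0 < β ∧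
    1 ≤ M ∧ ∀ h : ℝ → ℝ, ContDiff ℝ ∞ h → (∀ x, h (x + 2 * Real.pi) = h x) →
      (∀ x, c ≤ h x + deriv (deriv h) x) → (∀ i ≤ k, ∀ x, |iteratedDeriv i h x| ≤ A i) →
      Collar h η → FD.StripTab β M h := by
  obtain ⟨q0, hq0⟩ := exists_nat_gt (Real.pi / η)
  obtain ⟨C0, hC0, hap⟩ := exists_approx_fin A
  choose CF hCF hap using hap
  obtain ⟨N0, β, M, hβ, hM, hcore⟩ := core_fin hC0 (by positivity : 0 < c / 2) CF hCF q0
  refine ⟨N0 + 7, β, max M (1 / c), hβ, hM.trans (le_max_left _ _), ?_⟩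
  intro h hs hp hlow hA hcol
  have hpos : ∀ x, 0 < rad h x := fun x => hc.trans_le (hlow x)
  have hcst : ∀ n, q0 ≤ n → Cst h n := by
    intro n hn θ
    refine Reg.mx_const_of_collar_smooth hs hp hpos hcol ?_ θ
    have hn' : (q0 : ℝ) ≤ n := by exact_mod_cast hn
    rw [div_lt_iff₀ hη] at hq0
    rw [div_lt_iff₀ (by positivity)]
    nlinarith only [hn', hq0, hη]
  obtain ⟨H, h1, h2, h3⟩ := hcore h hs hp (fun x => by
    have := hlow x
    unfold rad
    linarith only [this]) hcst (fun N hN => hap N h hs hp (fun i hi x => by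
      rw [← iteratedDeriv_eq_iterate]; exact hA i (by omega) x))
  refine ⟨hp, fun x => ?_, H, h1, fun z hz => (h2 z hz).trans (le_max_left _ _), h3⟩
  have e1 := hlow x
  have e2 : 1 / c ≤ max M (1 / c) := le_max_right _ _
  calc (1 : ℝ) = 1 / c * c := by field_simp
    _ ≤ max M (1 / c) * (h x + deriv (deriv h) x) :=
      mul_le_mul e2 e1 hc.le (by positivity)

end Vale.Agent.P097.H407
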