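import Vale.Agent.P097.TOP.Defs

/-! # P097 / H407 : ellipses (support functions): smoothness, radius of curvature, uniform strips -/

set_option linter.all false

open scoped ContDiff
open Vale.Agent.P097 Vale.Agent.P097.FD Vale.Agent.P097.TOP

namespace Vale.Agent.P097.H407

/-- the amplitude of the second harmonic -/
noncomputable def er (v : Fin 5 → ℝ) : ℝ := √(v 3 ^ 2 + v 4 ^ 2)

/-- the half derivative of `EQ` -/
noncomputable def ER (v : Fin 5 → ℝ) (x : ℝ) : ℝ :=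
  v 4 * Real.cos (2 * x) - v 3 * Real.sin (2 * x)

lemma er_nonneg (v : Fin 5 → ℝ) : 0 ≤ er v := Real.sqrt_nonneg _

lemma er_sq (v : Fin 5 → ℝ) : er v ^ 2 = v 3 ^ 2 + v 4 ^ 2 :=
  Real.sq_sqrt (by positivity)

lemma er_eq (v : Fin 5 → ℝ) (x : ℝ) : (EQ v x - v 2) ^ 2 + ER v x ^ 2 = er v ^ 2 := by
  rw [er_sq]
  unfold EQ ER
  have h := Real.sin_sq_add_cos_sq (2 * x)
  linear_combination (v 3 ^ 2 + v 4 ^ 2) * h

lemma EQ_ge (v : Fin 5 → ℝ) (x : ℝ) : v 2 - er v ≤ EQ v x := by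
  have h := er_eq v x
  have h0 := er_nonneg v
  have : |EQ v x - v 2| ≤ er v := by
    apply abs_le_of_sq_le_sq _ h0
    nlinarith [sq_nonneg (ER v x)]
  linarith [(abs_le.1 this).1]

lemma EQ_le (v : Fin 5 → ℝ) (x : ℝ) : EQ v x ≤ v 2 + er v := by
  have h := er_eq v x
  have h0 := er_nonneg v
  have : |EQ v x - v 2| ≤ er v := by
    apply abs_le_of_sq_le_sq _ h0
    nlinarith [sq_nonneg (ER v x)]
  linarith [(abs_le.1 this).2]

lemma mem_EP {v : Fin 5 → ℝ} : v ∈ EP ↔ er v < v 2 := Iff.rfl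

lemma EQ_pos {v : Fin 5 → ℝ} (hv : v ∈ EP) (x : ℝ) : 0 < EQ v x := by
  have h1 := EQ_ge v x
  have h2 : er v < v 2 := hv
  linarith

lemma contDiff_EQ (v : Fin 5 → ℝ) : ContDiff ℝ ∞ (EQ v) := by
  unfold EQ
  fun_prop

lemma contDiff_EF {v : Fin 5 → ℝ} (hv : v ∈ EP) : ContDiff ℝ ∞ (EF v) := by
  unfold EF
  have h1 : ContDiff ℝ ∞ (fun x => √(EQ v x)) :=
    (contDiff_EQ v).sqrt (fun x => (EQ_pos hv x).ne')
  fun_prop

lemma EQ_per (v : Fin 5 → ℝ) (x : ℝ) : EQ v (x + 2 * Real.pi) = EQ v x := by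
  unfold EQ
  have h1 : 2 * (x + 2 * Real.pi) = 2 * x + 2 * Real.pi + 2 * Real.pi := by ring
  rw [h1, Real.cos_add_two_pi, Real.cos_add_two_pi, Real.sin_add_two_pi, Real.sin_add_two_pi]

lemma EF_per (v : Fin 5 → ℝ) (x : ℝ) : EF v (x + 2 * Real.pi) = EF v x := by
  unfold EF
  rw [EQ_per, Real.cos_add_two_pi, Real.sin_add_two_pi]

lemma hasDerivAt_EQ (v : Fin 5 → ℝ) (x : ℝ) : HasDerivAt (EQ v) (2 * ER v x) x := by
  have h2 : HasDerivAt (fun x : ℝ => 2 * x) 2 x := by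
    simpa using (hasDerivAt_id x).const_mul 2
  have hc : HasDerivAt (fun x : ℝ => Real.cos (2 * x)) (-Real.sin (2 * x) * 2) x :=
    (Real.hasDerivAt_cos (2 * x)).comp x h2
  have hs : HasDerivAt (fun x : ℝ => Real.sin (2 * x)) (Real.cos (2 * x) * 2) x :=
    (Real.hasDerivAt_sin (2 * x)).comp x h2
  have h : HasDerivAt (EQ v) _ x := ((hc.const_mul (v 3)).const_add (v 2)).add (hs.const_mul (v 4))
  refine h.congr_deriv ?_
  unfold ER
  ring

lemma hasDerivAt_ER (v : Fin 5 → ℝ) (x : ℝ) : HasDerivAt (ER v) (-2 * (EQ v x - v 2)) x := by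
  have h2 : HasDerivAt (fun x : ℝ => 2 * x) 2 x := by
    simpa using (hasDerivAt_id x).const_mul 2
  have hc : HasDerivAt (fun x : ℝ => Real.cos (2 * x)) (-Real.sin (2 * x) * 2) x :=
    (Real.hasDerivAt_cos (2 * x)).comp x h2
  have hs : HasDerivAt (fun x : ℝ => Real.sin (2 * x)) (Real.cos (2 * x) * 2) x :=
    (Real.hasDerivAt_sin (2 * x)).comp x h2
  have h : HasDerivAt (ER v) _ x := (hc.const_mul (v 4)).sub (hs.const_mul (v 3))
  refine h.congr_deriv ?_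
  unfold EQ
  ring

lemma hasDerivAt_sqrtEQ {v : Fin 5 → ℝ} (hv : v ∈ EP) (x : ℝ) :
    HasDerivAt (fun x => √(EQ v x)) (ER v x / √(EQ v x)) x := by
  refine ((hasDerivAt_EQ v x).sqrt (EQ_pos hv x).ne').congr_deriv ?_
  have : √(EQ v x) ≠ 0 := (Real.sqrt_pos.2 (EQ_pos hv x)).ne'
  field_simp

lemma hasDerivAt_EF {v : Fin 5 → ℝ} (hv : v ∈ EP) (x : ℝ) :
    HasDerivAt (EF v) (-v 0 * Real.sin x + v 1 * Real.cos x + ER v x / √(EQ v x)) x := by
  have h : HasDerivAt (EF v) _ x := (((Real.hasDerivAt_cos x).const_mul (v 0)).add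
    ((Real.hasDerivAt_sin x).const_mul (v 1))).add (hasDerivAt_sqrtEQ hv x)
  refine h.congr_deriv ?_
  ring

lemma deriv_EF {v : Fin 5 → ℝ} (hv : v ∈ EP) :
    deriv (EF v) = fun x => -v 0 * Real.sin x + v 1 * Real.cos x + ER v x / √(EQ v x) :=
  funext fun x => (hasDerivAt_EF hv x).deriv

lemma rad_EF {v : Fin 5 → ℝ} (hv : v ∈ EP) (x : ℝ) :
    EF v x + deriv (deriv (EF v)) x = (v 2 ^ 2 - er v ^ 2) / √(EQ v x) ^ 3 := by
  have hq := EQ_pos hv x
  have hs : 0 < √(EQ v x) := Real.sqrt_pos.2 hq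
  have hss : √(EQ v x) ^ 2 = EQ v x := Real.sq_sqrt hq.le
  have hd : HasDerivAt (fun x => ER v x / √(EQ v x))
      ((-2 * (EQ v x - v 2) * √(EQ v x) - ER v x * (ER v x / √(EQ v x))) / √(EQ v x) ^ 2) x :=
    (hasDerivAt_ER v x).div (hasDerivAt_sqrtEQ hv x) hs.ne'
  have h2 : deriv (deriv (EF v)) x = -v 0 * Real.cos x + v 1 * (-Real.sin x) +
      ((-2 * (EQ v x - v 2) * √(EQ v x) - ER v x * (ER v x / √(EQ v x))) / √(EQ v x) ^ 2) := by
    rw [deriv_EF hv]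
    exact ((((Real.hasDerivAt_sin x).const_mul (-v 0)).add
      ((Real.hasDerivAt_cos x).const_mul (v 1))).add hd).deriv
  rw [h2]
  unfold EF
  have he := er_eq v x
  set s := √(EQ v x) with hsd
  set q := EQ v x with hqd
  have h3 : v 0 * Real.cos x + v 1 * Real.sin x + s + (-v 0 * Real.cos x + v 1 * (-Real.sin x) +
      ((-2 * (q - v 2) * s - ER v x * (ER v x / s)) / s ^ 2)) =
      (s ^ 4 - 2 * (q - v 2) * s ^ 2 - ER v x ^ 2) / s ^ 3 := by
    field_simp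
    ring
  rw [h3]
  congr 1
  have hss' : s ^ 4 = q ^ 2 := by rw [← hss]; ring
  rw [hss', hss]
  linear_combination -he

lemma disc_pos {v : Fin 5 → ℝ} (hv : v ∈ EP) : 0 < v 2 ^ 2 - er v ^ 2 := by
  have h1 : er v < v 2 := hv
  have h2 := er_nonneg v
  nlinarith

lemma rad_EF_pos {v : Fin 5 → ℝ} (hv : v ∈ EP) (x : ℝ) :
    0 < EF v x + deriv (deriv (EF v)) x := by
  rw [rad_EF hv]
  have hs : 0 < √(EQ v x) := Real.sqrt_pos.2 (EQ_pos hv x)
  exact div_pos (disc_pos hv) (by positivity)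

/-- the support function of an ellipse is a smooth table -/
theorem smoothTable_EF {v : Fin 5 → ℝ} (hv : v ∈ EP) : SmoothTable (EF v) :=
  ⟨contDiff_EF hv, EF_per v, rad_EF_pos hv⟩

/-- complex extension of `EQ` -/
noncomputable def EQc (v : Fin 5 → ℝ) (z : ℂ) : ℂ :=
  (v 2 : ℂ) + (v 3 : ℂ) * Complex.cos (2 * z) + (v 4 : ℂ) * Complex.sin (2 * z)

/-- complex extension of `EF` -/
noncomputable def EFc (v : Fin 5 → ℝ) (z : ℂ) : ℂ :=
  (v 0 : ℂ) * Complex.cos z + (v 1 : ℂ) * Complex.sin z + (EQc v z) ^ (((2 : ℕ) : ℂ)⁻¹)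

lemma EQc_ofReal (v : Fin 5 → ℝ) (x : ℝ) : EQc v x = (EQ v x : ℝ) := by
  unfold EQc EQ
  push_cast
  rfl

lemma cpow_half_sq (w : ℂ) : (w ^ (((2 : ℕ) : ℂ)⁻¹)) ^ 2 = w :=
  Complex.cpow_nat_inv_pow w two_ne_zero

lemma norm_cpow_half_le {w : ℂ} {C : ℝ} (hC : 1 ≤ C) (hw : ‖w‖ ≤ C) :
    ‖w ^ (((2 : ℕ) : ℂ)⁻¹)‖ ≤ C := by
  have h : ‖w ^ (((2 : ℕ) : ℂ)⁻¹)‖ ^ 2 = ‖w‖ := by
    rw [← norm_pow, cpow_half_sq]
  by_contra hc
  push Not at hc
  nlinarith [norm_nonneg (w ^ (((2 : ℕ) : ℂ)⁻¹))]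

lemma cpow_half_ofReal {r : ℝ} (hr : 0 ≤ r) : ((r : ℂ)) ^ (((2 : ℕ) : ℂ)⁻¹) = ((√r : ℝ) : ℂ) := by
  have : (((2 : ℕ) : ℂ)⁻¹) = (((1 / 2 : ℝ)) : ℂ) := by push_cast; norm_num
  rw [this, ← Complex.ofReal_cpow hr, Real.sqrt_eq_rpow]

lemma norm_cos_le (z : ℂ) : ‖Complex.cos z‖ ≤ Real.cosh z.im := by
  have h1 : ‖Complex.exp (z * Complex.I)‖ = Real.exp (-z.im) := by
    rw [Complex.norm_exp]; simp
  have h2 : ‖Complex.exp (-z * Complex.I)‖ = Real.exp z.im := by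
    rw [Complex.norm_exp]; simp
  rw [Complex.cos, norm_div, Real.cosh_eq]
  have h3 := norm_add_le (Complex.exp (z * Complex.I)) (Complex.exp (-z * Complex.I))
  rw [h1, h2] at h3
  have : ‖(2 : ℂ)‖ = 2 := by simp
  rw [this]
  linarith

lemma norm_sin_le (z : ℂ) : ‖Complex.sin z‖ ≤ Real.cosh z.im := by
  have h1 : ‖Complex.exp (z * Complex.I)‖ = Real.exp (-z.im) := by
    rw [Complex.norm_exp]; simp
  have h2 : ‖Complex.exp (-z * Complex.I)‖ = Real.exp z.im := by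
    rw [Complex.norm_exp]; simp
  rw [Complex.sin, norm_div, norm_mul, Complex.norm_I, mul_one, Real.cosh_eq]
  have h3 := norm_sub_le (Complex.exp (-z * Complex.I)) (Complex.exp (z * Complex.I))
  rw [h1, h2] at h3
  have : ‖(2 : ℂ)‖ = 2 := by simp
  rw [this]
  linarith

lemma re_EQc (v : Fin 5 → ℝ) (z : ℂ) : (EQc v z).re =
    v 2 + (v 3 * Real.cos (2 * z.re) + v 4 * Real.sin (2 * z.re)) * Real.cosh (2 * z.im) := by
  have h1 : (Complex.cos (2 * z)).re = Real.cos (2 * z.re) * Real.cosh (2 * z.im) := by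
    have : (2 * z) = (((2 * z.re : ℝ)) : ℂ) + (((2 * z.im : ℝ)) : ℂ) * Complex.I := by
      apply Complex.ext <;> simp
    rw [this, Complex.cos_add_mul_I, Complex.sub_re]
    rw [← Complex.ofReal_cos, ← Complex.ofReal_cosh, ← Complex.ofReal_sin, ← Complex.ofReal_sinh,
      ← Complex.ofReal_mul, ← Complex.ofReal_mul, Complex.ofReal_re, Complex.re_ofReal_mul,
      Complex.I_re, mul_zero, sub_zero]
  have h2 : (Complex.sin (2 * z)).re = Real.sin (2 * z.re) * Real.cosh (2 * z.im) := by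
    have : (2 * z) = (((2 * z.re : ℝ)) : ℂ) + (((2 * z.im : ℝ)) : ℂ) * Complex.I := by
      apply Complex.ext <;> simp
    rw [this, Complex.sin_add_mul_I, Complex.add_re]
    rw [← Complex.ofReal_cos, ← Complex.ofReal_cosh, ← Complex.ofReal_sin, ← Complex.ofReal_sinh,
      ← Complex.ofReal_mul, ← Complex.ofReal_mul, Complex.ofReal_re, Complex.re_ofReal_mul,
      Complex.I_re, mul_zero, add_zero]
  unfold EQc
  rw [Complex.add_re, Complex.add_re, Complex.re_ofReal_mul, Complex.re_ofReal_mul, h1, h2,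
    Complex.ofReal_re]
  ring

lemma re_EQc_ge (v : Fin 5 → ℝ) (z : ℂ) :
    v 2 - er v * Real.cosh (2 * z.im) ≤ (EQc v z).re := by
  rw [re_EQc]
  have h1 := EQ_ge v z.re
  unfold EQ at h1
  have h2 := Real.cosh_pos (2 * z.im)
  nlinarith

/-- ellipses with bounded parameters which are uniformly non-degenerate have a uniform strip -/
theorem strip_of_bd {δ B : ℝ} (hδ : 0 < δ) (hB : 1 ≤ B) : ∃ β M : ℝ, 0 < β ∧ 1 ≤ M ∧
    ∀ v : Fin 5 → ℝ, (∀ i, |v i| ≤ B) → er v + δ ≤ v 2 → StripTab β M (EF v) := by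
  obtain ⟨β, hβ, hβ1⟩ : ∃ β : ℝ, 0 < β ∧ Real.cosh (2 * β) < 1 + min 1 (δ / B) := by
    have hc : Continuous fun y : ℝ => Real.cosh (2 * y) := by fun_prop
    have hm : 0 < min 1 (δ / B) := lt_min one_pos (by positivity)
    have h0 : Real.cosh (2 * (0 : ℝ)) < 1 + min 1 (δ / B) := by simp; positivity
    have hev : ∀ᶠ y in nhds (0 : ℝ), Real.cosh (2 * y) < 1 + min 1 (δ / B) :=
      (hc.tendsto 0).eventually (gt_mem_nhds h0) |>.mono fun y hy => hy
    obtain ⟨ε, hε, hy⟩ := Metric.eventually_nhds_iff.1 hev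
    refine ⟨ε / 2, by positivity, hy ?_⟩
    rw [Real.dist_eq, sub_zero, abs_of_pos (by positivity)]
    linarith
  have hc1 : ∀ z : ℂ, |z.im| < β → Real.cosh (2 * z.im) ≤ Real.cosh (2 * β) := by
    intro z hz
    rw [Real.cosh_le_cosh, abs_mul, abs_mul, abs_of_pos hβ, abs_two]
    linarith
  have hc2 : ∀ z : ℂ, |z.im| < β → Real.cosh z.im ≤ 2 := by
    intro z hz
    have h1 : Real.cosh z.im ≤ Real.cosh (2 * z.im) := by
      rw [Real.cosh_le_cosh, abs_mul, abs_two]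
      linarith [abs_nonneg z.im]
    have := min_le_left 1 (δ / B)
    linarith [hc1 z hz]
  have hc3 : ∀ z : ℂ, |z.im| < β → Real.cosh (2 * z.im) ≤ 2 := by
    intro z hz
    have := min_le_left 1 (δ / B)
    linarith [hc1 z hz]
  have hc4 : B * (Real.cosh (2 * β) - 1) < δ := by
    have h1 := min_le_right 1 (δ / B)
    have h2 : Real.cosh (2 * β) - 1 < δ / B := by linarith
    calc B * (Real.cosh (2 * β) - 1) < B * (δ / B) := by gcongr
      _ = δ := by field_simp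
  refine ⟨β, max (9 * B) (8 * B ^ 3 / δ ^ 2), hβ, le_max_of_le_left (by linarith), ?_⟩
  intro v hv hd
  have hv2 : v 2 ≤ B := le_trans (le_abs_self _) (hv 2)
  have hr0 := er_nonneg v
  have hvE : v ∈ EP := by
    show er v < v 2
    linarith
  have hrB : er v ≤ B := by linarith
  refine ⟨EF_per v, ?_, EFc v, ?_, ?_, ?_⟩
  · intro x
    rw [rad_EF hvE]
    have hq := EQ_pos hvE x
    have hs : 0 < √(EQ v x) := Real.sqrt_pos.2 hq
    have hq2 : EQ v x ≤ 2 * B := le_trans (EQ_le v x) (by linarith)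
    have hs2 : √(EQ v x) ≤ 2 * B := by
      rw [Real.sqrt_le_left (by linarith)]
      nlinarith
    have hs3 : √(EQ v x) ^ 3 ≤ 8 * B ^ 3 := by
      calc √(EQ v x) ^ 3 ≤ (2 * B) ^ 3 := by gcongr
        _ = 8 * B ^ 3 := by ring
    have hD : δ ^ 2 ≤ v 2 ^ 2 - er v ^ 2 := by nlinarith
    have hrad : δ ^ 2 / (8 * B ^ 3) ≤ (v 2 ^ 2 - er v ^ 2) / √(EQ v x) ^ 3 := by
      gcongr
      have := disc_pos hvE
      linarith
    have h0 : (0 : ℝ) < δ ^ 2 / (8 * B ^ 3) := by positivity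
    calc (1 : ℝ) = (8 * B ^ 3 / δ ^ 2) * (δ ^ 2 / (8 * B ^ 3)) := by field_simp
      _ ≤ max (9 * B) (8 * B ^ 3 / δ ^ 2) * ((v 2 ^ 2 - er v ^ 2) / √(EQ v x) ^ 3) := by
        gcongr
        exact le_max_right _ _
  · intro z hz
    have hz' : |z.im| < β := hz
    have hre : 0 < (EQc v z).re := by
      have h1 := re_EQc_ge v z
      have h2 : er v * (Real.cosh (2 * z.im) - 1) ≤ B * (Real.cosh (2 * β) - 1) := by
        have h3 := Real.one_le_cosh (2 * z.im)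
        have h4 := hc1 z hz'
        apply mul_le_mul hrB (by linarith) (by linarith) (by linarith)
      nlinarith
    have hsl : EQc v z ∈ Complex.slitPlane := Or.inl hre
    have hEQ : DifferentiableAt ℂ (EQc v) z := by
      unfold EQc
      fun_prop
    have h1 : DifferentiableAt ℂ (fun z => (EQc v z) ^ (((2 : ℕ) : ℂ)⁻¹)) z :=
      hEQ.cpow_const hsl
    have h2 : DifferentiableAt ℂ (EFc v) z := by
      unfold EFc
      fun_prop
    exact h2.differentiableWithinAt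
  · intro z hz
    have h1 := norm_cos_le z
    have h2 := norm_sin_le z
    have h3 := hc2 z hz
    have h4 := norm_cos_le (2 * z)
    have h5 := norm_sin_le (2 * z)
    have him : (2 * z).im = 2 * z.im := by simp
    rw [him] at h4 h5
    have h6 := hc3 z hz
    have hbd : ∀ (i : Fin 5) (w : ℂ) (c : ℝ), ‖w‖ ≤ c → ‖(v i : ℂ) * w‖ ≤ B * c := by
      intro i w c hw
      rw [norm_mul, Complex.norm_real, Real.norm_eq_abs]
      exact mul_le_mul (hv i) hw (norm_nonneg _) (by linarith)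
    have hq : ‖EQc v z‖ ≤ 5 * B := by
      unfold EQc
      have a1 := hbd 3 _ 2 (h4.trans h6)
      have a2 := hbd 4 _ 2 (h5.trans h6)
      have a3 : ‖(v 2 : ℂ)‖ ≤ B := by
        rw [Complex.norm_real, Real.norm_eq_abs]; exact hv 2
      calc _ ≤ ‖(v 2 : ℂ)‖ + ‖(v 3 : ℂ) * Complex.cos (2 * z)‖ + ‖(v 4 : ℂ) * Complex.sin (2 * z)‖ :=
            norm_add₃_le
        _ ≤ 5 * B := by linarith
    have hs := norm_cpow_half_le (w := EQc v z) (C := 5 * B) (by linarith) hq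
    have a1 := hbd 0 _ 2 (h1.trans h3)
    have a2 := hbd 1 _ 2 (h2.trans h3)
    unfold EFc
    calc _ ≤ ‖(v 0 : ℂ) * Complex.cos z‖ + ‖(v 1 : ℂ) * Complex.sin z‖ +
          ‖(EQc v z) ^ (((2 : ℕ) : ℂ)⁻¹)‖ := norm_add₃_le
      _ ≤ 9 * B := by linarith
      _ ≤ _ := le_max_left _ _
  · intro x
    unfold EFc EF
    rw [EQc_ofReal, cpow_half_ofReal (EQ_pos hvE x).le]
    push_cast
    rfl

lemma continuous_er : Continuous er := by
  unfold er
  fun_prop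

/-- compact families of ellipses have a uniform strip -/
theorem stripEll (K : Set (Fin 5 → ℝ)) (hK : K ⊆ EP) (hc : IsCompact K) : ∃ β M : ℝ,
    0 < β ∧ 1 ≤ M ∧ ∀ v ∈ K, StripTab β M (EF v) := by
  rcases K.eq_empty_or_nonempty with rfl | hne
  · exact ⟨1, 1, one_pos, le_rfl, fun v hv => absurd hv (Set.notMem_empty v)⟩
  obtain ⟨v0, hv0, hmin⟩ := hc.exists_isMinOn hne
    (f := fun v : Fin 5 → ℝ => v 2 - er v) (by
      have := continuous_er
      fun_prop)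
  obtain ⟨v1, hv1, hmax⟩ := hc.exists_isMaxOn hne
    (f := fun v : Fin 5 → ℝ => ‖v‖) (by fun_prop)
  have hδ : 0 < v0 2 - er v0 := by
    have : er v0 < v0 2 := hK hv0
    linarith
  obtain ⟨β, M, hβ, hM, H⟩ := strip_of_bd hδ (B := 1 + ‖v1‖) (by linarith [norm_nonneg v1])
  refine ⟨β, M, hβ, hM, fun v hv => H v ?_ ?_⟩
  · intro i
    have h1 : ‖v i‖ ≤ ‖v‖ := norm_le_pi_norm v i
    have h2 : ‖v‖ ≤ ‖v1‖ := hmax hv
    rw [Real.norm_eq_abs] at h1
    linarith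
  · have h2 : v0 2 - er v0 ≤ v 2 - er v := hmin hv
    linarith

end Vale.Agent.P097.H407
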