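import Vale.Agent.P097.H500.Collar
import Vale.Agent.P097.H407.Ell

/-! # P097 / H407 : reduction of the linear rigidity to ellipses in normal position -/

set_option linter.all false

open scoped ContDiff
open Vale.Agent.P097 Vale.Agent.P097.FD Vale.Agent.P097.TOP

namespace Vale.Agent.P097.H407

/-- [ELLC] compact families of ellipses have a uniform collar and a uniform strip -/
theorem stELLC : StELLC := by
  intro K hK hc
  obtain ⟨η, hη, H1⟩ := H500.Ell.collar_unif hK hc
  obtain ⟨β, M, hβ, hM, H2⟩ := stripEll K hK hc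
  exact ⟨η, β, M, hη, hβ, hM, fun v hv => ⟨H2 v hv, H1 v hv⟩⟩

/-- rotation of the table -/
lemma bdry_rotate {h : ℝ → ℝ} {h' : ℝ} (φ x : ℝ) (hh : HasDerivAt h h' x) :
    bdry (fun x => h (x - φ)) (x + φ) = bdry h x * Complex.exp ((φ : ℂ) * Complex.I) := by
  have h1 : HasDerivAt (fun x => h (x - φ)) h' (x + φ) := by
    have h2 : HasDerivAt (fun x : ℝ => x - φ) 1 (x + φ) := (hasDerivAt_id _).sub_const φ
    have h3 : HasDerivAt h h' (x + φ - φ) := by rwa [add_sub_cancel_right]
    exact (h3.comp (x + φ) h2).congr_deriv (mul_one h')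
  unfold bdry
  rw [h1.deriv, hh.deriv]
  beta_reduce
  rw [add_sub_cancel_right]
  push_cast
  rw [add_mul (x : ℂ), Complex.exp_add]
  ring

lemma step_rotate {h : ℝ → ℝ} (hh : Differentiable ℝ h) (φ : ℝ) {x δ y δ' : ℝ}
    (H : Step h x δ y δ') : Step (fun x => h (x - φ)) (x + φ) δ (y + φ) δ' := by
  obtain ⟨h1, h2, h3, h4, h5, ℓ, hℓ, h6⟩ := H
  refine ⟨h1, h2, h3, h4, by rw [h5]; ring, ℓ, hℓ, ?_⟩
  rw [bdry_rotate φ y (hh y).hasDerivAt, bdry_rotate φ x (hh x).hasDerivAt, h6]
  have : (((x + φ + δ : ℝ)) : ℂ) * Complex.I = ((x + δ : ℝ) : ℂ) * Complex.I + (φ : ℂ) * Complex.I := by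
    push_cast; ring
  rw [this, Complex.exp_add]
  ring

lemma step_rotate_iff {h : ℝ → ℝ} (hh : Differentiable ℝ h) (φ : ℝ) {x δ y δ' : ℝ} :
    Step (fun x => h (x - φ)) x δ y δ' ↔ Step h (x - φ) δ (y - φ) δ' := by
  constructor
  · intro H
    have h1 : Differentiable ℝ (fun x => h (x - φ)) := by fun_prop
    have h2 := step_rotate h1 (-φ) H
    simp only [sub_neg_eq_add, add_sub_cancel_right, ← sub_eq_add_neg] at h2
    exact h2
  · intro H
    have h2 := step_rotate hh φ H
    simpa using h2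

/-- the general ellipse is a rotated and translated ellipse in normal position -/
lemma exists_normal {v : Fin 5 → ℝ} (hv : v ∈ EP) (hn : v 3 ≠ 0 ∨ v 4 ≠ 0) :
    ∃ a c φ : ℝ, 0 < c ∧ c < a ∧ ∀ x, √(EQ v x) = LR.hE a c (x - φ) := by
  have hr : 0 < er v := by
    apply Real.sqrt_pos.2
    rcases hn with h | h
    · have := sq_pos_of_ne_zero h; positivity
    · have := sq_pos_of_ne_zero h; positivity
  have hr2 : er v < v 2 := hv
  have hsq := er_sq v
  -- the angle
  obtain ⟨θ, hθ⟩ : ∃ θ : ℝ, v 3 = er v * Real.cos θ ∧ v 4 = er v * Real.sin θ := by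
    set z : ℂ := ⟨v 3, v 4⟩ with hz
    have hnz : ‖z‖ = er v := by
      rw [Complex.norm_def, Complex.normSq_mk]
      unfold er
      congr 1
      ring
    refine ⟨Complex.arg z, ?_, ?_⟩
    · rw [← hnz, Complex.norm_mul_cos_arg]
    · rw [← hnz, Complex.norm_mul_sin_arg]
  refine ⟨√(v 2 + er v), √(v 2 - er v), θ / 2, Real.sqrt_pos.2 (by linarith),
    Real.sqrt_lt_sqrt (by linarith) (by linarith), fun x => ?_⟩
  unfold LR.hE
  congr 1
  rw [Real.sq_sqrt (by linarith), Real.sq_sqrt (by linarith)]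
  unfold EQ
  have h1 : Real.cos (2 * x) = Real.cos (2 * (x - θ / 2)) * Real.cos θ -
      Real.sin (2 * (x - θ / 2)) * Real.sin θ := by
    rw [← Real.cos_add]; congr 1; ring
  have h2 : Real.sin (2 * x) = Real.sin (2 * (x - θ / 2)) * Real.cos θ +
      Real.cos (2 * (x - θ / 2)) * Real.sin θ := by
    rw [← Real.sin_add]; congr 1; ring
  rw [h1, h2, hθ.1, hθ.2, Real.cos_two_mul, Real.sin_two_mul]
  have h3 := Real.sin_sq_add_cos_sq θ
  have h4 := Real.sin_sq_add_cos_sq (x - θ / 2)
  set S := Real.sin (x - θ / 2)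
  set C := Real.cos (x - θ / 2)
  set s := Real.sin θ
  set c := Real.cos θ
  have h5 : S ^ 2 = 1 - C ^ 2 := by linarith
  have h6 : s ^ 2 = 1 - c ^ 2 := by linarith
  rw [h5]
  linear_combination er v * (2 * C ^ 2 - 1) * h3

/-- [LIN] from the linear rigidity of ellipses in normal position -/
theorem stLIN_of (H5 : LR.LIN5) : StLIN := by
  intro v hv hn g hg hp η hη HL
  obtain ⟨a, c, φ, hc, hca, hE⟩ := exists_normal hv hn
  have hdE : Differentiable ℝ (LR.hE a c) := by
    rw [H500.Ell.hE_eq]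
    exact H500.Ell.differentiable_sf (H500.Ell.ok_hE hc hca.le)
  have hdr : Differentiable ℝ (fun x => LR.hE a c (x - φ)) := by fun_prop
  have hEF : EF v = fun x => v 0 * Real.cos x + v 1 * Real.sin x + LR.hE a c (x - φ) := by
    funext x
    unfold EF
    rw [hE]
  have hstep : ∀ x δ y δ' : ℝ, Step (EF v) x δ y δ' ↔ Step (LR.hE a c) (x - φ) δ (y - φ) δ' := by
    intro x δ y δ'
    rw [hEF]
    rw [H500.Ell.step_trans_iff (h := fun x => LR.hE a c (x - φ)) hdr, step_rotate_iff hdE]
  have hS : LR.SolE a c (η / Real.pi) (fun x => g (x + φ)) := by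
    refine ⟨fun x => ?_, fun x => ?_, ?_⟩
    · have h1 : AnalyticAt ℝ (fun x : ℝ => x + φ) x := by fun_prop
      exact AnalyticAt.comp (g := g) (f := fun x : ℝ => x + φ) (hg (x + φ)) h1
    · show g (x + 2 * Real.pi + φ) = g (x + φ)
      rw [show x + 2 * Real.pi + φ = x + φ + 2 * Real.pi by ring, hp]
    · intro n p hn0 hp0 hpn J hJ hJa hCl x x' hx hx'
      set f : ℝ → ℝ := fun x => LR.fE a c J (x - φ) with hf
      have hInv := H500.Ell.joa a c hc hca.le J hJ hJa
      have hG : InvGraph (EF v) f := by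
        refine ⟨hInv.1.comp (continuous_id.sub continuous_const), fun x => ?_, fun x => hInv.2.2.1 _,
          fun ψ => ?_⟩
        · simp only [hf]
          rw [show x + 2 * Real.pi - φ = (x - φ) + 2 * Real.pi by ring]
          exact hInv.2.1 _
        · obtain ⟨ψ', h'⟩ := hInv.2.2.2 (ψ - φ)
          refine ⟨ψ' + φ, ?_⟩
          rw [hstep]
          simpa [hf] using h'
      have hO : ∀ z : ℕ → ℝ, Orbit (EF v) f z ↔ LR.Orb (LR.hE a c) (LR.fE a c J) (fun j => z j - φ) := by
        intro z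
        unfold Orbit LR.Orb
        simp only [hstep, hf]
      have hPQ : PQLeaf (EF v) f p n := by
        refine ⟨hG, fun z hz => ?_⟩
        have := hCl _ ((hO z).1 hz)
        linarith
      have hlt : Real.pi * p / n < η := by
        have hpi := Real.pi_pos
        calc Real.pi * p / n = Real.pi * ((p : ℝ) / n) := by ring
          _ < Real.pi * (η / Real.pi) := by gcongr
          _ = η := by field_simp
      have hshift : ∀ z : ℕ → ℝ, LR.Orb (LR.hE a c) (LR.fE a c J) z →
          Orbit (EF v) f (fun j => z j + φ) := by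
        intro z hz
        rw [hO]
        simpa using hz
      have key := HL p n f hp0 hn0 hlt hPQ _ _ (hshift x hx) (hshift x' hx')
      unfold osum at key
      simpa [hf] using key
  obtain ⟨w, hw⟩ := H5 a c hc hca (η / Real.pi) (div_pos hη Real.pi_pos) _ hS
  refine ⟨![w 0 * Real.cos φ - w 1 * Real.sin φ, w 0 * Real.sin φ + w 1 * Real.cos φ, w 2,
    w 3 * Real.cos (2 * φ) - w 4 * Real.sin (2 * φ),
    w 3 * Real.sin (2 * φ) + w 4 * Real.cos (2 * φ)], fun x => ?_⟩
  have h1 := hw (x - φ)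
  simp only [sub_add_cancel] at h1
  rw [h1]
  unfold TE LR.tg
  rw [hE x]
  simp only [Fin.sum_univ_five, EQ]
  simp only [Matrix.cons_val_zero, Matrix.cons_val_one, Matrix.cons_val]
  rw [show 2 * (x - φ) = 2 * x - 2 * φ by ring, Real.cos_sub, Real.sin_sub, Real.cos_sub,
    Real.sin_sub]
  ring

end Vale.Agent.P097.H407
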