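import Vale.Agent.P097.H407.Rat1
import Vale.Agent.P097.H407.Fin
import Vale.Agent.P097.H407.Red
import Vale.Agent.P097.TOP.Main
import Vale.Agent.P097.PV.FV

/-! # P097 / H407 : the local theorem for tables with all the rational invariant curves of small
rotation number -/

set_option linter.all false

namespace Vale.Agent.P097.H407

open Vale.Agent.P097 Vale.Agent.P097.FD Vale.Agent.P097.TOP
open Filter Metric
open scoped ContDiff Topology

/-- the maximal lengths of polygons with small rotation numbers are constant -/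
structure Rsn (h : ℝ → ℝ) (η : ℝ) : Prop where
  cst : CstAll h η
  cstP : ∀ n p : ℕ, 1 ≤ p → p ≤ n → Real.pi * p / ((n : ℝ) + 1) < η → PV.CstP h n p

theorem Rsn.mono {h : ℝ → ℝ} {η η' : ℝ} (H : Rsn h η) (he : η' ≤ η) : Rsn h η' :=
  ⟨fun n hn => H.cst n (hn.trans_le he), fun n p h1 h2 h3 => H.cstP n p h1 h2 (h3.trans_le he)⟩

theorem rsn_of_collar {h : ℝ → ℝ} {η : ℝ} (H : SmoothTable h) (h0 : 0 < η) (C : Collar h η) :
    Rsn h η :=
  ⟨fun _ hn θ => Reg.mx_const_of_collar_smooth H.1 H.2.1 H.2.2 C hn θ,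
    fun _ _ h1 h2 h3 => PV.cstP_of_collar (PV.adm_of_collar H h0 C) C h1 h2 h3⟩

/-- all the rational invariant curves with rotation number less than `ε` -/
def Leaves (h : ℝ → ℝ) (ε : ℝ) : Prop :=
  ∀ p n : ℕ, 0 < p → 0 < n → Nat.Coprime p n → (p : ℝ) / n < ε → ∃ f, PQLeaf h f p n

theorem orbit_shift {h f : ℝ → ℝ} {x : ℕ → ℝ} (hx : Orbit h f x) (m : ℕ) :
    Orbit h f (fun j => x (j + m)) := fun j => by
  have := hx (j + m)
  rwa [show j + m + 1 = j + 1 + m by ring] at this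

theorem pq_mul {h f : ℝ → ℝ} {p n : ℕ} (R : PQLeaf h f p n) (d : ℕ) :
    PQLeaf h f (d * p) (d * n) := by
  refine ⟨R.1, ?_⟩
  induction d with
  | zero => intro x _; simp
  | succ d ih =>
    intro x hx
    have h1 := R.2 _ (orbit_shift hx (d * n))
    have h2 := ih x hx
    simp only [zero_add] at h1
    rw [show (d + 1) * n = n + d * n by ring, h1, h2]
    push_cast
    ring

theorem rsn_of_leaves {h : ℝ → ℝ} {η : ℝ} (H : SmoothTable h) (h0 : 0 < η)
    (R : Leaves h (η / Real.pi)) : Rsn h η := by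
  have hpi0 := Real.pi_pos
  have R' : ∀ p n : ℕ, 0 < p → 0 < n → Real.pi * p / n < η → ∃ f, PQLeaf h f p n := by
    intro p n hp hn hlt
    have hg : 0 < Nat.gcd p n := Nat.gcd_pos_of_pos_left _ hp
    obtain ⟨p', hp'⟩ := Nat.gcd_dvd_left p n
    obtain ⟨n', hn'⟩ := Nat.gcd_dvd_right p n
    have hp0 : 0 < p' := Nat.pos_of_ne_zero (by rintro rfl; simp at hp'; omega)
    have hn0 : 0 < n' := Nat.pos_of_ne_zero (by rintro rfl; simp at hn'; omega)
    have hcop : Nat.Coprime p' n' := by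
      have h1 := Nat.coprime_div_gcd_div_gcd hg
      have e1 : p / Nat.gcd p n = p' := by
        conv_lhs => rw [hp']
        rw [← hp']
        exact Nat.div_eq_of_eq_mul_right hg hp'
      have e2 : n / Nat.gcd p n = n' := Nat.div_eq_of_eq_mul_right hg hn'
      rwa [e1, e2] at h1
    have hlt' : (p' : ℝ) / n' < η / Real.pi := by
      rw [lt_div_iff₀ hpi0]
      have e3 : Real.pi * p / n = (p' : ℝ) / n' * Real.pi := by
        have a1 : (p : ℝ) = Nat.gcd p n * p' := by exact_mod_cast hp'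
        have a2 : (n : ℝ) = Nat.gcd p n * n' := by exact_mod_cast hn'
        have a3 : (Nat.gcd p n : ℝ) ≠ 0 := by exact_mod_cast hg.ne'
        have a4 : (n' : ℝ) ≠ 0 := by exact_mod_cast hn0.ne'
        rw [a1, a2]
        field_simp
      rwa [e3] at hlt
    obtain ⟨f, hf⟩ := R p' n' hp0 hn0 hcop hlt'
    refine ⟨f, ?_⟩
    have := pq_mul hf (Nat.gcd p n)
    rwa [← hp', ← hn'] at this
  have hleaf : ∀ n : ℕ, Real.pi / ((n : ℝ) + 1) < η → ∃ f, RatLeaf h (n + 1) f := by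
    intro n hn
    obtain ⟨f, h1, h2⟩ := R' 1 (n + 1) one_pos (Nat.succ_pos n) (by push_cast; simpa using hn)
    refine ⟨f, h1, fun x hx => ?_⟩
    have := h2 x hx
    simpa using this
  have hA : ∃ q₀ : ℕ, ∀ q ≥ q₀, ∃ f, RatLeaf h q f := by
    obtain ⟨q0, hq0⟩ := exists_nat_gt (Real.pi / η)
    refine ⟨q0 + 1, fun q hq => ?_⟩
    obtain ⟨n, rfl⟩ : ∃ n, q = n + 1 := ⟨q - 1, by omega⟩
    apply hleaf n
    have hn' : (q0 : ℝ) ≤ n := by exact_mod_cast (by omega : q0 ≤ n)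
    rw [div_lt_iff₀ h0] at hq0
    rw [div_lt_iff₀ (by positivity)]
    nlinarith
  have hadm := (regularity H (Or.inr hA)).adm
  refine ⟨fun n hn θ => ?_, fun n p h1 h2 h3 => ?_⟩
  · obtain ⟨f, hf⟩ := hleaf n hn
    exact Reg.mx_const_of_ratLeaf_smooth H.1 H.2.1 H.2.2 hf θ
  · obtain ⟨f, hf⟩ := R' p (n + 1) h1 (Nat.succ_pos n) (by push_cast; exact h3)
    exact PV.cstP_of_leaf hadm h1 h2 (f := f) hf

/-- [FV] first variation for resonant tables -/
theorem fv_r {e g : ℝ → ℝ} {hs es : ℕ → ℝ → ℝ} {eps : ℕ → ℝ} {η : ℝ} (He : SmoothTable e)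
    (h0 : 0 < η) (ce : Collar e η) (hgc : Continuous g) (Hh : ∀ k, Continuous (hs k))
    (Hes : ∀ k, Continuous (es k)) (rh : ∀ k, Rsn (hs k) η) (re : ∀ k, Rsn (es k) η)
    (hpos : ∀ k, 0 < eps k) (l1 : TendstoUniformly hs e atTop) (l2 : TendstoUniformly es e atTop)
    (l3 : TendstoUniformly (fun k x => (hs k x - es k x) / eps k) g atTop) :
    ∀ (p n : ℕ) (f : ℝ → ℝ), 0 < p → 0 < n → Real.pi * p / n < η → PQLeaf e f p n →
      ∀ x y, Orbit e f x → Orbit e f y → osum g f n x = osum g f n y := by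
  intro p N f hp hN hlt R x y hx hy
  obtain ⟨n, rfl⟩ : ∃ n, N = n + 1 := ⟨N - 1, by omega⟩
  have hlt' : Real.pi * p / ((n : ℝ) + 1) < η := by
    push_cast at hlt
    exact hlt
  have hpn : p ≤ n := by
    have h1 := lt_of_lt_of_le hlt' (PV.collar_le_pi ce)
    have hn1 : (0 : ℝ) < n + 1 := by positivity
    rw [div_lt_iff₀ hn1] at h1
    have h2 : (p : ℝ) < n + 1 := lt_of_mul_lt_mul_left h1 Real.pi_pos.le
    have : p < n + 1 := by exact_mod_cast h2
    omega
  have conv : ∀ {u : ℕ → ℝ → ℝ} {v : ℝ → ℝ}, TendstoUniformly u v atTop →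
      ∀ ε > 0, ∀ᶠ k in atTop, ∀ x, |u k x - v x| ≤ ε := by
    intro u v huv ε hε
    filter_upwards [Metric.tendstoUniformly_iff.1 huv ε hε] with k hk x
    have := hk x
    rw [dist_comm, Real.dist_eq] at this
    exact this.le
  obtain ⟨c, hc⟩ := PV.first_variation (f := f) hp hpn (PV.adm_of_collar He h0 ce) hgc Hh Hes
    (fun k => (rh k).cstP n p hp hpn hlt') (fun k => (re k).cstP n p hp hpn hlt')
    (conv l1) (conv l2) hpos (conv l3) R
  show ∑ j ∈ Finset.range (n + 1), g (x j) * Real.sin (f (x j)) =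
    ∑ j ∈ Finset.range (n + 1), g (y j) * Real.sin (f (y j))
  rw [hc x hx, hc y hy]

/-- the local theorem for resonant tables in a class with a uniform strip -/
theorem open_r (hL : StLIN) {v0 : Fin 5 → ℝ} (hv0 : v0 ∈ EP) (hnc : v0 3 ≠ 0 ∨ v0 4 ≠ 0)
    {η β1 M1 : ℝ} (hη : 0 < η) (hβ1 : 0 < β1) (hM1 : 1 ≤ M1) : ∃ κ : ℝ, 0 < κ ∧ ∀ h : ℝ → ℝ,
      StripTab β1 M1 h → Rsn h η → (∀ x, |h x - EF v0 x| < κ) → ∃ w ∈ EP, h = EF w := by
  by_contra hcon
  push Not at hcon
  -- a sequence of counterexamples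
  have hex : ∀ n : ℕ, ∃ h : ℝ → ℝ, StripTab β1 M1 h ∧ Rsn h η ∧
      (∀ x, |h x - EF v0 x| < 1 / ((n : ℝ) + 1)) ∧ ∀ w ∈ EP, h ≠ EF w := by
    intro n
    obtain ⟨h, a1, a2, a3, a4⟩ := hcon (1 / ((n : ℝ) + 1)) (by positivity)
    exact ⟨h, a1, a2, a3, a4⟩
  choose h hS hCol hclose hnot using hex
  obtain ⟨r, s, hr, hs, hKE, hK⟩ := exists_ball hv0
  have hv0K : v0 ∈ closedBall v0 r := mem_closedBall_self hr.le
  obtain ⟨η2, β2, M2, hη2, hβ2, hM2, hell⟩ := stELLC _ hKE (isCompact_closedBall v0 r)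
  -- uniform constants
  obtain ⟨η', hη'⟩ : ∃ η', η' = min η η2 := ⟨_, rfl⟩
  obtain ⟨β, hβ⟩ : ∃ β, β = min β1 β2 := ⟨_, rfl⟩
  obtain ⟨M, hM⟩ : ∃ M, M = max M1 M2 := ⟨_, rfl⟩
  have hη'0 : 0 < η' := by rw [hη']; exact lt_min hη hη2
  have hβ0 : 0 < β := by rw [hβ]; exact lt_min hβ1 hβ2
  have hM10 : 1 ≤ M := by rw [hM]; exact hM1.trans (le_max_left _ _)
  obtain ⟨β', C, hβ'0, hC0, hF⟩ := stF_r η' β M hη'0 hβ0 hM10
  have hSh : ∀ n, SmoothTable (h n) := fun n =>
    ⟨(hS n).contDiff hβ1, (hS n).1, (hS n).rad_pos hM1⟩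
  have hTh : ∀ n, StripTab β M (h n) := fun n =>
    StripTab.mono (by linarith) (by rw [hβ]; exact min_le_left _ _) (by rw [hM]; exact le_max_left _ _)
      (hS n) (hSh n).2.2
  have hCh : ∀ n, Rsn (h n) η' := fun n => (hCol n).mono (by rw [hη']; exact min_le_left _ _)
  have hSe : ∀ v ∈ closedBall v0 r, SmoothTable (EF v) := fun v hv =>
    ⟨(hell v hv).1.contDiff hβ2, (hell v hv).1.1, (hell v hv).1.rad_pos hM2⟩
  have hTe : ∀ v ∈ closedBall v0 r, StripTab β M (EF v) := fun v hv =>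
    StripTab.mono (by linarith) (by rw [hβ]; exact min_le_right _ _)
      (by rw [hM]; exact le_max_right _ _) (hell v hv).1 (hSe v hv).2.2
  have hCe : ∀ v ∈ closedBall v0 r, Collar (EF v) η' := fun v hv =>
    (hell v hv).2.mono' (by rw [hη']; exact min_le_right _ _)
  have hRe : ∀ v ∈ closedBall v0 r, Rsn (EF v) η' := fun v hv =>
    rsn_of_collar (hSe v hv) hη'0 (hCe v hv)
  -- distance to the family
  obtain ⟨d, hd⟩ : ∃ d : ℕ → ℝ, d = fun n => sInf (dset (closedBall v0 r) (h n)) := ⟨_, rfl⟩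
  have hmem : ∀ n : ℕ, 1 / ((n : ℝ) + 1) ∈ dset (closedBall v0 r) (h n) := fun n =>
    ⟨by positivity, v0, hv0K, fun x => (hclose n x).le⟩
  have hdn : ∀ n : ℕ, d n ≤ 1 / ((n : ℝ) + 1) := by
    intro n; rw [hd]; exact csInf_le (dset_bdd _ _) (hmem n)
  have hd0 : ∀ n, 0 < d n := by
    intro n; rw [hd]
    exact dist_pos hr hs hK ⟨_, hmem n⟩ fun w hw => hnot n w (hKE hw)
  have hd1 : Tendsto d atTop (𝓝 0) :=
    squeeze_zero (fun n => (hd0 n).le) hdn tendsto_one_div_add_atTop_nhds_zero_nat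
  have hch : ∀ n, ∃ v ∈ closedBall v0 r, ∀ x, |h n x - EF v x| ≤ 2 * d n := by
    intro n
    have h1 : sInf (dset (closedBall v0 r) (h n)) < 2 * d n := by
      have : sInf (dset (closedBall v0 r) (h n)) = d n := by rw [hd]
      rw [this]; linarith [hd0 n]
    obtain ⟨b, ⟨hb0, v, hv, hb⟩, hbk⟩ := exists_lt_of_csInf_lt ⟨_, hmem n⟩ h1
    exact ⟨v, hv, fun x => (hb x).trans hbk.le⟩
  choose v hvK hvd using hch
  -- the quotients
  have hG : ∀ n, ∃ G : ℂ → ℂ, DifferentiableOn ℂ G {z : ℂ | |z.im| < β'} ∧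
      (∀ z : ℂ, |z.im| < β' → ‖G z‖ ≤ C * (2 * d n)) ∧ ∀ x : ℝ, G x = h n x - EF (v n) x := fun n =>
    hF (h n) (EF (v n)) (hTh n) (hTe _ (hvK n)) (hCh n).cst (hRe _ (hvK n)).cst (2 * d n) (hvd n)
  choose G hG1 hG2 hG3 using hG
  obtain ⟨φ, g, hφ, hgan, hgper, hglim⟩ := subseq (C := C) hβ'0
    (fun n x => (h n x - EF (v n) x) / (2 * d n)) (fun n z => ((2 * d n : ℝ) : ℂ)⁻¹ * G n z)
    (fun n => (hG1 n).const_mul _) (fun n z hz => by
      have h0 : 0 < 2 * d n := by linarith [hd0 n]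
      rw [norm_mul, norm_inv, Complex.norm_real, Real.norm_of_nonneg h0.le, inv_mul_le_iff₀ h0]
      linarith [hG2 n z hz]) (fun n x => by
      rw [hG3]; push_cast; ring) (fun n x => by
      rw [(hSh n).2.1, TOP.EF_per])
  -- convergence of the parameters
  obtain ⟨w0, hw0, ψ, hψ, hvlim⟩ := (isCompact_closedBall v0 r).tendsto_subseq
    (x := fun k => v (φ k)) (fun k => hvK _)
  obtain ⟨N, hN⟩ : ∃ N : ℕ → ℕ, N = fun k => φ (ψ k) := ⟨_, rfl⟩
  have hNm : StrictMono N := by rw [hN]; exact hφ.comp hψ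
  have hNt : Tendsto N atTop atTop := hNm.tendsto_atTop
  have hvlim' : Tendsto (fun k => v (N k)) atTop (𝓝 w0) := by rw [hN]; exact hvlim
  have hgl : TendstoUniformly (fun k x => (h (N k) x - EF (v (N k)) x) / (2 * d (N k))) g atTop := by
    rw [Metric.tendstoUniformly_iff] at hglim ⊢
    intro ε hε
    have := hψ.tendsto_atTop.eventually (hglim ε hε)
    rw [hN]; exact this
  have hdN : Tendsto (fun k => d (N k)) atTop (𝓝 0) := hd1.comp hNt
  have hclose' : ∀ n x, |EF (v n) x - EF v0 x| ≤ 3 * (1 / ((n : ℝ) + 1)) := by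
    intro n x
    have h1 := hvd n x
    have h2 := hclose n x
    have h3 := hdn n
    have h4 : |EF (v n) x - EF v0 x| ≤ |h n x - EF (v n) x| + |h n x - EF v0 x| := by
      have e : EF (v n) x - EF v0 x = (h n x - EF v0 x) - (h n x - EF (v n) x) := by ring
      rw [e]
      have := abs_sub (h n x - EF v0 x) (h n x - EF (v n) x)
      linarith
    linarith
  have h3n : Tendsto (fun n : ℕ => 3 * (1 / ((n : ℝ) + 1))) atTop (𝓝 0) := by
    simpa using (tendsto_one_div_add_atTop_nhds_zero_nat (𝕜 := ℝ)).const_mul 3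
  have hw0v : w0 = v0 := by
    refine EF_inj (hKE hw0) hv0 fun x => ?_
    have h1 := EF_tendsto hs hK (u := fun k => v (N k)) (fun k => hvK _) hw0 hvlim' x
    have h2 : Tendsto (fun k => EF (v (N k)) x) atTop (𝓝 (EF v0 x)) := by
      rw [tendsto_iff_norm_sub_tendsto_zero]
      exact squeeze_zero (fun _ => norm_nonneg _) (fun k => hclose' (N k) x) (h3n.comp hNt)
    exact tendsto_nhds_unique h1 h2
  rw [hw0v] at hvlim'
  -- first variation and linear rigidity
  have hu1 : TendstoUniformly (fun k => h (N k)) (EF v0) atTop := by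
    rw [Metric.tendstoUniformly_iff]
    intro ε hε
    have h1 : Tendsto (fun n : ℕ => 1 / ((n : ℝ) + 1)) atTop (𝓝 0) :=
      tendsto_one_div_add_atTop_nhds_zero_nat
    filter_upwards [(h1.comp hNt).eventually (gt_mem_nhds hε)] with k hk x
    rw [dist_comm, Real.dist_eq]
    exact (hclose (N k) x).trans hk
  have hu2 : TendstoUniformly (fun k => EF (v (N k))) (EF v0) atTop := by
    rw [Metric.tendstoUniformly_iff]
    intro ε hε
    filter_upwards [(h3n.comp hNt).eventually (gt_mem_nhds hε)] with k hk x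
    rw [dist_comm, Real.dist_eq]
    exact (hclose' (N k) x).trans_lt hk
  have hgc : Continuous g := continuous_iff_continuousAt.2 fun x => (hgan x).continuousAt
  have hε0 : Tendsto (fun k => 2 * d (N k)) atTop (𝓝 0) := by simpa using hdN.const_mul 2
  have hlin : ∀ (p n : ℕ) (f : ℝ → ℝ), 0 < p → 0 < n → Real.pi * p / n < η' →
      PQLeaf (EF v0) f p n → ∀ x y, Orbit (EF v0) f x → Orbit (EF v0) f y →
        osum g f n x = osum g f n y :=
    fv_r (hs := fun k => h (N k)) (es := fun k => EF (v (N k))) (eps := fun k => 2 * d (N k))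
      (hSe v0 hv0K) hη'0 (hCe v0 hv0K) hgc (fun k => (hSh _).1.continuous)
      (fun k => (hSe _ (hvK _)).1.continuous) (fun k => hCh _) (fun k => hRe _ (hvK _))
      (fun k => by linarith [hd0 (N k)]) hu1 hu2 hgl
  obtain ⟨w, hw⟩ := hL v0 hv0 hnc g hgan hgper η' hη'0 hlin
  -- contradiction: a better ellipse
  have hnv : Tendsto (fun k => ‖v (N k) - v0‖) atTop (𝓝 0) := by
    have := (hvlim'.sub_const v0).norm
    simpa using this
  have c1 : ∀ᶠ k in atTop, ∀ x, |(h (N k) x - EF (v (N k)) x) / (2 * d (N k)) - g x| < 1 / 8 := by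
    have := (Metric.tendstoUniformly_iff.1 hgl) (1 / 8) (by norm_num)
    filter_upwards [this] with k hk x
    have := hk x
    rwa [dist_comm, Real.dist_eq] at this
  have c2 : ∀ᶠ k in atTop, 9 * ‖w‖ / (2 * s ^ 3) * ‖v (N k) - v0‖ < 1 / 8 := by
    have h1 : Tendsto (fun k => 9 * ‖w‖ / (2 * s ^ 3) * ‖v (N k) - v0‖) atTop (𝓝 0) := by
      simpa using hnv.const_mul (9 * ‖w‖ / (2 * s ^ 3))
    exact h1.eventually (gt_mem_nhds (by norm_num))
  have c3 : ∀ᶠ k in atTop, 2 * d (N k) * (9 * ‖w‖ ^ 2 / (2 * s ^ 3)) < 1 / 8 := by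
    have h1 : Tendsto (fun k => 2 * d (N k) * (9 * ‖w‖ ^ 2 / (2 * s ^ 3))) atTop (𝓝 0) := by
      simpa using hε0.mul_const (9 * ‖w‖ ^ 2 / (2 * s ^ 3))
    exact h1.eventually (gt_mem_nhds (by norm_num))
  have c4 : ∀ᶠ k in atTop, ‖v (N k) - v0‖ + 2 * d (N k) * ‖dir w‖ < r := by
    have h1 : Tendsto (fun k => ‖v (N k) - v0‖ + 2 * d (N k) * ‖dir w‖) atTop (𝓝 0) := by
      simpa using hnv.add (hε0.mul_const ‖dir w‖)
    exact h1.eventually (gt_mem_nhds hr)
  obtain ⟨k, k1, k2, k3, k4⟩ := (c1.and (c2.and (c3.and c4))).exists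
  obtain ⟨b, hb⟩ : ∃ b, b = 2 * d (N k) := ⟨_, rfl⟩
  rw [← hb] at k1 k3 k4
  have hb0 : 0 < b := by rw [hb]; linarith [hd0 (N k)]
  have hV' : v (N k) + b • dir w ∈ closedBall v0 r := by
    rw [mem_closedBall, dist_eq_norm]
    have e : v (N k) + b • dir w - v0 = (v (N k) - v0) + b • dir w := by abel
    rw [e]
    refine (norm_add_le _ _).trans ?_
    rw [norm_smul, Real.norm_of_nonneg hb0.le]
    exact k4.le
  have hbest : ∀ x, |h (N k) x - EF (v (N k) + b • dir w) x| ≤ b * (3 / 8) := by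
    intro x
    have t1 := k1 x
    have t2 := TE_lip (w := w) hs x (hK _ (hvK (N k)) x) (hK _ hv0K x)
    have t3 := EF_taylor hs x (hK _ (hvK (N k)) x) (hK _ hV' x)
    have e : h (N k) x - EF (v (N k) + b • dir w) x =
        b * ((h (N k) x - EF (v (N k)) x) / b - g x) - b * (TE (v (N k)) w x - TE v0 w x)
          - (EF (v (N k) + b • dir w) x - EF (v (N k)) x - b * TE (v (N k)) w x) := by
      rw [← hw x]
      have : b * ((h (N k) x - EF (v (N k)) x) / b - g x) =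
          (h (N k) x - EF (v (N k)) x) - b * g x := by field_simp
      rw [this]; ring
    have u1 : |b * ((h (N k) x - EF (v (N k)) x) / b - g x)| ≤ b * (1 / 8) := by
      rw [abs_mul, abs_of_pos hb0]; exact mul_le_mul_of_nonneg_left t1.le hb0.le
    have u2 : |b * (TE (v (N k)) w x - TE v0 w x)| ≤ b * (1 / 8) := by
      rw [abs_mul, abs_of_pos hb0]
      exact mul_le_mul_of_nonneg_left (t2.trans k2.le) hb0.le
    have u3 : |EF (v (N k) + b • dir w) x - EF (v (N k)) x - b * TE (v (N k)) w x| ≤ b * (1 / 8) := by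
      refine t3.trans ?_
      have : b ^ 2 * (9 * ‖w‖ ^ 2 / (2 * s ^ 3)) = b * (b * (9 * ‖w‖ ^ 2 / (2 * s ^ 3))) := by ring
      rw [this]
      exact mul_le_mul_of_nonneg_left k3.le hb0.le
    rw [e]
    have a1 := abs_sub (b * ((h (N k) x - EF (v (N k)) x) / b - g x)
      - b * (TE (v (N k)) w x - TE v0 w x))
      (EF (v (N k) + b • dir w) x - EF (v (N k)) x - b * TE (v (N k)) w x)
    have a2 := abs_sub (b * ((h (N k) x - EF (v (N k)) x) / b - g x))
      (b * (TE (v (N k)) w x - TE v0 w x))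
    linarith
  have hle : d (N k) ≤ b * (3 / 8) := by
    have h1 : b * (3 / 8) ∈ dset (closedBall v0 r) (h (N k)) :=
      ⟨by positivity, v (N k) + b • dir w, hV', hbest⟩
    have h2 := csInf_le (dset_bdd _ _) h1
    rw [hd]; exact h2
  have := hd0 (N k)
  rw [hb] at hle
  linarith


end Vale.Agent.P097.H407
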