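import Vale.Agent.P097.H407.Rat3

/-! # P097 / H407 : the final statements -/

set_option linter.all false

namespace Vale.Agent.P097.H407

open Vale.Agent.P097 Vale.Agent.P097.FD Vale.Agent.P097.TOP
open Filter
open scoped ContDiff Topology

/-- the support function of the ellipse with centre `(p, q)` and half axes `a`, `b`, where the axis
of half length `a` makes the angle `φ` with the `x`-axis -/
noncomputable def ellipse (a b φ p q : ℝ) (ψ : ℝ) : ℝ :=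
  p * Real.cos ψ + q * Real.sin ψ +
    √(a ^ 2 * Real.cos (ψ - φ) ^ 2 + b ^ 2 * Real.sin (ψ - φ) ^ 2)

/-- support functions of ellipses (discs included) -/
def IsEllipse (h : ℝ → ℝ) : Prop := ∃ a b φ p q : ℝ, 0 < a ∧ 0 < b ∧ h = ellipse a b φ p q

lemma ellipse_eq {a b : ℝ} (ha : 0 < a) (hb : 0 < b) (φ p q : ℝ) : ∃ v : Fin 5 → ℝ, v ∈ EP ∧
    ellipse a b φ p q = EF v ∧ (a ≠ b → v 3 ≠ 0 ∨ v 4 ≠ 0) := by
  have hcs := Real.sin_sq_add_cos_sq (2 * φ)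
  refine ⟨![p, q, (a ^ 2 + b ^ 2) / 2, (a ^ 2 - b ^ 2) / 2 * Real.cos (2 * φ),
    (a ^ 2 - b ^ 2) / 2 * Real.sin (2 * φ)], ?_, ?_, ?_⟩
  · show √(((a ^ 2 - b ^ 2) / 2 * Real.cos (2 * φ)) ^ 2 +
      ((a ^ 2 - b ^ 2) / 2 * Real.sin (2 * φ)) ^ 2) < (a ^ 2 + b ^ 2) / 2
    have e : ((a ^ 2 - b ^ 2) / 2 * Real.cos (2 * φ)) ^ 2 +
        ((a ^ 2 - b ^ 2) / 2 * Real.sin (2 * φ)) ^ 2 = ((a ^ 2 - b ^ 2) / 2) ^ 2 := by
      linear_combination ((a ^ 2 - b ^ 2) / 2) ^ 2 * hcs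
    rw [e, Real.sqrt_sq_eq_abs, abs_lt]
    have h1 := sq_pos_of_pos ha
    have h2 := sq_pos_of_pos hb
    constructor <;> linarith
  · funext x
    show p * Real.cos x + q * Real.sin x +
      √(a ^ 2 * Real.cos (x - φ) ^ 2 + b ^ 2 * Real.sin (x - φ) ^ 2) =
      p * Real.cos x + q * Real.sin x + √((a ^ 2 + b ^ 2) / 2 +
        (a ^ 2 - b ^ 2) / 2 * Real.cos (2 * φ) * Real.cos (2 * x) +
        (a ^ 2 - b ^ 2) / 2 * Real.sin (2 * φ) * Real.sin (2 * x))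
    congr 2
    have h1 : Real.cos (2 * φ) * Real.cos (2 * x) + Real.sin (2 * φ) * Real.sin (2 * x) =
        2 * Real.cos (x - φ) ^ 2 - 1 := by
      rw [← Real.cos_two_mul, show 2 * (x - φ) = 2 * x - 2 * φ by ring, Real.cos_sub]
      ring
    have h2 := Real.sin_sq_add_cos_sq (x - φ)
    linear_combination -((a ^ 2 - b ^ 2) / 2) * h1 + b ^ 2 * h2
  · intro hab
    show (a ^ 2 - b ^ 2) / 2 * Real.cos (2 * φ) ≠ 0 ∨ (a ^ 2 - b ^ 2) / 2 * Real.sin (2 * φ) ≠ 0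
    have h1 : (a ^ 2 - b ^ 2) / 2 ≠ 0 := by
      intro h
      have h2 : (a - b) * (a + b) = 0 := by linarith
      rcases mul_eq_zero.1 h2 with h3 | h3
      · exact hab (by linarith)
      · linarith
    by_contra hc
    push Not at hc
    have h2 := (mul_eq_zero.1 hc.1).resolve_left h1
    have h3 := (mul_eq_zero.1 hc.2).resolve_left h1
    rw [h2, h3] at hcs
    norm_num at hcs

lemma isEllipse_iff (h : ℝ → ℝ) : IsEllipse h ↔ ∃ w ∈ EP, h = EF w := by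
  constructor
  · rintro ⟨a, b, φ, p, q, ha, hb, rfl⟩
    obtain ⟨v, hv, he, -⟩ := ellipse_eq ha hb φ p q
    exact ⟨v, hv, he⟩
  · rintro ⟨w, hw, rfl⟩
    by_cases hn : w 3 ≠ 0 ∨ w 4 ≠ 0
    · obtain ⟨a, c, φ, hc, hca, hE⟩ := exists_normal hw hn
      refine ⟨a, c, φ, w 0, w 1, hc.trans hca, hc, funext fun x => ?_⟩
      unfold EF ellipse
      rw [hE]
      rfl
    · push Not at hn
      have h2 : 0 < w 2 := by
        have : er w < w 2 := hw
        exact (er_nonneg w).trans_lt this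
      refine ⟨√(w 2), √(w 2), 0, w 0, w 1, Real.sqrt_pos.2 h2, Real.sqrt_pos.2 h2,
        funext fun x => ?_⟩
      unfold EF ellipse EQ
      rw [hn.1, hn.2, Real.sq_sqrt h2.le]
      congr 2
      have := Real.sin_sq_add_cos_sq (x - 0)
      linear_combination -(w 2) * this

/-- the final statement, from the linear rigidity -/
theorem main_of (HL : StLIN) :
    (∀ a b φ p q : ℝ, 0 < a → 0 < b → a ≠ b → ∀ η : ℝ, 0 < η → ∃ (k : ℕ) (κ : ℝ), 0 < κ ∧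
      ∀ h : ℝ → ℝ, SmoothTable h → (Collar h η ∨ Leaves h η) →
        CkClose k κ h (ellipse a b φ p q) → IsEllipse h) ∧
    (∀ (X : Type) [TopologicalSpace X] [PreconnectedSpace X] (H : X → ℝ → ℝ) (η : ℝ), 0 < η →
      (∀ x, SmoothTable (H x) ∧ (Collar (H x) η ∨ Leaves (H x) η)) →
      (∀ (i : ℕ) (x₀ : X),
        TendstoUniformly (fun x => iteratedDeriv i (H x)) (iteratedDeriv i (H x₀)) (𝓝 x₀)) →
      (∀ x, ¬ IsDisc (H x)) → (∃ x, IsEllipse (H x)) → ∀ x, IsEllipse (H x)) ∧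
    (∀ (I : Set ℝ) (H : ℝ → ℝ → ℝ) (t₀ η : ℝ), IsPreconnected I → t₀ ∈ I → 0 < η →
      (∀ t ∈ I, SmoothTable (H t)) → (∀ s, AnalyticOnNhd ℝ (fun t => H t s) I) →
      (∀ i : ℕ, TendstoUniformly (fun t => iteratedDeriv i (H t)) (iteratedDeriv i (H t₀))
        (𝓝[I] t₀)) →
      IsEllipse (H t₀) → ¬ IsDisc (H t₀) →
      (∃ᶠ t in 𝓝[I \ {t₀}] t₀, Collar (H t) η ∨ Leaves (H t) η) → ∀ t ∈ I, IsEllipse (H t)) := by
  refine ⟨?_, ?_, ?_⟩
  · intro a b φ p q ha hb hab η hη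
    obtain ⟨v, hv, he, hn⟩ := ellipse_eq ha hb φ p q
    obtain ⟨k, κ, hκ, H⟩ := local_Ck_r HL hv (hn hab) hη
    refine ⟨k, κ, hκ, fun h hs hN hc => ?_⟩
    rw [he] at hc
    exact (isEllipse_iff h).2 (H h hs hN hc)
  · intro X _ _ H η hη hT hc hnd hex x
    obtain ⟨x0, hx0⟩ := hex
    rw [isEllipse_iff] at hx0 ⊢
    exact connected_r HL H hη hT hc hnd x0 hx0 x
  · intro I H t0 η hI ht0 hη hT ha hc he hnd hcol t ht
    rw [isEllipse_iff] at he ⊢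
    exact analytic_family_r HL hI H hT ha ht0 he hnd hc hη hcol t ht

end Vale.Agent.P097.H407
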