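import Mathlib

open Set Filter Metric Topology

namespace Vale.Agent.P097.Hol

variable {E F : Type*} [NormedAddCommGroup E] [NormedSpace ℂ E]
  [NormedAddCommGroup F] [NormedSpace ℂ F]

/-- Cauchy estimate for the Frechet derivative. -/
theorem norm_fderiv_le_of_ball {f : E → F} {x : E} {r C : ℝ} (hr : 0 < r)
    (hf : DifferentiableOn ℂ f (ball x r)) (hC : ∀ y ∈ ball x r, ‖f y‖ ≤ C) :
    ‖fderiv ℂ f x‖ ≤ C / r := by
  have hC0 : 0 ≤ C := (norm_nonneg _).trans (hC x (mem_ball_self hr))
  have hfx : DifferentiableAt ℂ f x := hf.differentiableAt (ball_mem_nhds x hr)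
  refine ContinuousLinearMap.opNorm_le_bound _ (by positivity) fun v => ?_
  rcases eq_or_ne v 0 with rfl | hv
  · simp
  have hv' : 0 < ‖v‖ := norm_pos_iff.2 hv
  have hder : deriv (fun t : ℂ => f (x + t • v)) 0 = fderiv ℂ f x v := by
    have h1 : HasDerivAt (fun t : ℂ => x + t • v) v 0 := by
      simpa using ((hasDerivAt_id (0 : ℂ)).smul_const v).const_add x
    have h2 : HasFDerivAt f (fderiv ℂ f x) (x + (0 : ℂ) • v) := by simpa using hfx.hasFDerivAt
    exact (h2.comp_hasDerivAt (0 : ℂ) h1).deriv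
  have hmem : ∀ t ∈ ball (0 : ℂ) (r / ‖v‖), x + t • v ∈ ball x r := by
    intro t ht
    rw [mem_ball_zero_iff] at ht
    rw [mem_ball, dist_eq_norm, add_sub_cancel_left, norm_smul]
    exact (lt_div_iff₀ hv').1 ht
  have hd : DifferentiableOn ℂ (fun t : ℂ => f (x + t • v)) (ball 0 (r / ‖v‖)) := by
    refine hf.comp ?_ hmem
    fun_prop
  rw [← hder]
  have key : ∀ s : ℝ, 0 < s → s < r / ‖v‖ → ‖deriv (fun t : ℂ => f (x + t • v)) 0‖ ≤ C / s := by
    intro s hs hs'
    apply Complex.norm_deriv_le_of_forall_mem_sphere_norm_le hs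
    · exact (hd.mono (closedBall_subset_ball hs')).diffContOnCl_ball (le_refl _) |>.mono (le_refl _)
    · intro z hz
      exact hC _ (hmem z (by
        rw [mem_sphere_zero_iff_norm] at hz
        rw [mem_ball_zero_iff, hz]; exact hs'))
  have hlim : Tendsto (fun s : ℝ => C / s) (𝓝[<] (r / ‖v‖)) (𝓝 (C / (r / ‖v‖))) := by
    apply tendsto_nhdsWithin_of_tendsto_nhds
    exact tendsto_const_nhds.div tendsto_id (by positivity)
  have hev : ∀ᶠ s : ℝ in 𝓝[<] (r / ‖v‖), ‖deriv (fun t : ℂ => f (x + t • v)) 0‖ ≤ C / s := by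
    have : Ioo 0 (r / ‖v‖) ∈ 𝓝[<] (r / ‖v‖) := Ioo_mem_nhdsLT (by positivity)
    filter_upwards [this] with s hs using key s hs.1 hs.2
  have := ge_of_tendsto hlim hev
  calc _ ≤ C / (r / ‖v‖) := this
    _ = C / r * ‖v‖ := by field_simp

/-- The Frechet derivative of a holomorphic function is continuous. -/
theorem continuousOn_fderiv_of_differentiableOn [FiniteDimensional ℂ E] {f : E → F} {U : Set E}
    (hU : IsOpen U) (hf : DifferentiableOn ℂ f U) : ContinuousOn (fderiv ℂ f) U := by
  have : ProperSpace E := FiniteDimensional.proper ℂ E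
  intro x hx
  apply ContinuousAt.continuousWithinAt
  obtain ⟨r, hr, hrU⟩ : ∃ r > 0, closedBall x (2 * r) ⊆ U := by
    obtain ⟨r, hr, h⟩ := Metric.isOpen_iff.1 hU x hx
    exact ⟨r / 4, by positivity, (closedBall_subset_ball (by linarith)).trans h⟩
  have hunif : UniformContinuousOn f (closedBall x (2 * r)) :=
    (isCompact_closedBall x (2 * r)).uniformContinuousOn_of_continuous (hf.continuousOn.mono hrU)
  rw [Metric.continuousAt_iff]
  intro ε hε
  obtain ⟨δ, hδ, hδf⟩ := Metric.uniformContinuousOn_iff.1 hunif (ε * r / 2) (by positivity)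
  refine ⟨min δ r, by positivity, fun {y} hy => ?_⟩
  have hyδ : dist y x < δ := hy.trans_le (min_le_left _ _)
  have hyr : dist y x < r := hy.trans_le (min_le_right _ _)
  have hxm : ∀ h ∈ ball (0 : E) r, x + h ∈ closedBall x (2 * r) := by
    intro h hh
    rw [mem_ball_zero_iff] at hh
    rw [mem_closedBall, dist_eq_norm, add_sub_cancel_left]; linarith
  have hym : ∀ h ∈ ball (0 : E) r, y + h ∈ closedBall x (2 * r) := by
    intro h hh
    rw [mem_ball_zero_iff] at hh
    rw [mem_closedBall, dist_eq_norm]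
    calc ‖y + h - x‖ = ‖(y - x) + h‖ := by congr 1; abel
      _ ≤ ‖y - x‖ + ‖h‖ := norm_add_le _ _
      _ ≤ 2 * r := by rw [← dist_eq_norm]; linarith
  have hdx : DifferentiableAt ℂ f x := hf.differentiableAt (hU.mem_nhds hx)
  have hyU : y ∈ U := hrU (by simpa using hym 0 (mem_ball_self hr))
  have hdy : DifferentiableAt ℂ f y := hf.differentiableAt (hU.mem_nhds hyU)
  have h1 : HasFDerivAt (fun h : E => f (y + h) - f (x + h)) (fderiv ℂ f y - fderiv ℂ f x) 0 := by
    have hy1 : HasFDerivAt (fun h : E => f (y + h)) (fderiv ℂ f y) 0 := by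
      have := (show HasFDerivAt f (fderiv ℂ f y) (y + 0) by simpa using hdy.hasFDerivAt)
      have h3 := this.comp (0 : E) ((hasFDerivAt_id (0 : E)).const_add y)
      rw [ContinuousLinearMap.comp_id] at h3
      exact h3
    have hx1 : HasFDerivAt (fun h : E => f (x + h)) (fderiv ℂ f x) 0 := by
      have := (show HasFDerivAt f (fderiv ℂ f x) (x + 0) by simpa using hdx.hasFDerivAt)
      have h3 := this.comp (0 : E) ((hasFDerivAt_id (0 : E)).const_add x)
      rw [ContinuousLinearMap.comp_id] at h3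
      exact h3
    exact hy1.sub hx1
  have h2 : ‖fderiv ℂ (fun h : E => f (y + h) - f (x + h)) 0‖ ≤ (ε * r / 2) / r := by
    apply norm_fderiv_le_of_ball hr
    · apply DifferentiableOn.sub
      · exact hf.comp (by fun_prop) fun h hh => hrU (hym h hh)
      · exact hf.comp (by fun_prop) fun h hh => hrU (hxm h hh)
    · intro h hh
      have := hδf (y + h) (hym h hh) (x + h) (hxm h hh) (by simpa using hyδ)
      rw [dist_eq_norm] at this
      exact this.le
  rw [h1.fderiv] at h2
  rw [dist_eq_norm]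
  calc _ ≤ (ε * r / 2) / r := h2
    _ = ε / 2 := by field_simp
    _ < ε := by linarith

/-- Holomorphic dependence of circle integrals on parameters. -/
theorem differentiableOn_circleIntegral [FiniteDimensional ℂ E] [CompleteSpace F]
    {G : E × ℂ → F} {U : Set E} {W : Set ℂ} {c : ℂ} {R : ℝ} (hR : 0 ≤ R)
    (hU : IsOpen U) (hW : IsOpen W) (hsW : sphere c R ⊆ W)
    (hG : DifferentiableOn ℂ G (U ×ˢ W)) :
    DifferentiableOn ℂ (fun x => ∮ t in C(c, R), G (x, t)) U := by
  have : ProperSpace E := FiniteDimensional.proper ℂ E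
  intro x₀ hx₀
  apply DifferentiableAt.differentiableWithinAt
  have hUW : IsOpen (U ×ˢ W) := hU.prod hW
  -- bound near `x₀`
  obtain ⟨r, hr, hrU⟩ : ∃ r > 0, closedBall x₀ (2 * r) ⊆ U := by
    obtain ⟨r, hr, h⟩ := Metric.isOpen_iff.1 hU x₀ hx₀
    exact ⟨r / 4, by positivity, (closedBall_subset_ball (by linarith)).trans h⟩
  have hcomp : IsCompact (closedBall x₀ (2 * r) ×ˢ sphere c R) :=
    (isCompact_closedBall _ _).prod (isCompact_sphere _ _)
  have hsub : closedBall x₀ (2 * r) ×ˢ sphere c R ⊆ U ×ˢ W := prod_mono hrU hsW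
  obtain ⟨C, hC⟩ := hcomp.exists_bound_of_continuousOn (hG.continuousOn.mono hsub)
  have hcirc : ∀ θ : ℝ, circleMap c R θ ∈ sphere c R := fun θ => circleMap_mem_sphere c hR θ
  have hdG : ∀ x ∈ ball x₀ (2 * r), ∀ t ∈ sphere c R,
      HasFDerivAt (fun x => G (x, t))
        ((fderiv ℂ G (x, t)).comp (ContinuousLinearMap.inl ℂ E ℂ)) x := by
    intro x hx t ht
    have h1 : DifferentiableAt ℂ G (x, t) :=
      hG.differentiableAt (hUW.mem_nhds ⟨hrU (ball_subset_closedBall hx), hsW ht⟩)
    have h2 : HasFDerivAt (fun x : E => (x, t)) (ContinuousLinearMap.inl ℂ E ℂ) x :=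
      hasFDerivAt_prodMk_left x t
    exact h1.hasFDerivAt.comp x h2
  have hbound : ∀ x ∈ ball x₀ r, ∀ t ∈ sphere c R,
      ‖(fderiv ℂ G (x, t)).comp (ContinuousLinearMap.inl ℂ E ℂ)‖ ≤ C / r := by
    intro x hx t ht
    have hxb : ball x r ⊆ ball x₀ (2 * r) := by
      intro y hy
      rw [mem_ball] at hx hy ⊢
      calc dist y x₀ ≤ dist y x + dist x x₀ := dist_triangle _ _ _
        _ < 2 * r := by linarith
    have hx2 : x ∈ ball x₀ (2 * r) := hxb (mem_ball_self hr)
    rw [← (hdG x hx2 t ht).fderiv]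
    apply norm_fderiv_le_of_ball hr
    · intro y hy
      exact (hdG y (hxb hy) t ht).differentiableAt.differentiableWithinAt
    · intro y hy
      exact hC (y, t) ⟨ball_subset_closedBall (hxb hy), ht⟩
  have hcontD : ContinuousOn (fderiv ℂ G) (U ×ˢ W) := continuousOn_fderiv_of_differentiableOn hUW hG
  have hcd : Continuous (deriv (circleMap c R)) := by
    have : deriv (circleMap c R) = fun θ => circleMap 0 R θ * Complex.I := by
      ext θ; exact deriv_circleMap c R θ
    rw [this]
    exact (continuous_circleMap 0 R).mul continuous_const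
  simp only [circleIntegral]
  have key := hasFDerivAt_integral_of_dominated_of_fderiv_le
    (μ := MeasureTheory.volume.restrict (Set.uIoc 0 (2 * Real.pi)))
    (F := fun (x : E) (θ : ℝ) => deriv (circleMap c R) θ • G (x, circleMap c R θ))
    (F' := fun (x : E) (θ : ℝ) => deriv (circleMap c R) θ •
      ((fderiv ℂ G (x, circleMap c R θ)).comp (ContinuousLinearMap.inl ℂ E ℂ)))
    (x₀ := x₀) (s := ball x₀ r) (bound := fun _ => |R| * (C / r)) (𝕜 := ℂ)
    (ball_mem_nhds x₀ hr) ?_ ?_ ?_ ?_ ?_ ?_
  · have h0 : (0 : ℝ) ≤ 2 * Real.pi := by positivity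
    simp only [intervalIntegral.integral_of_le h0, Set.uIoc_of_le h0] at key ⊢
    exact key.differentiableAt
  · filter_upwards [ball_mem_nhds x₀ hr] with x hx
    apply ContinuousOn.aestronglyMeasurable _ measurableSet_uIoc
    refine hcd.continuousOn.smul ?_
    · refine hG.continuousOn.comp (by fun_prop) fun θ _ => ?_
      exact ⟨hrU (ball_subset_closedBall (ball_subset_ball (by linarith) hx)), hsW (hcirc θ)⟩
  · have hci : CircleIntegrable (fun t => G (x₀, t)) c R := by
      apply ContinuousOn.circleIntegrable hR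
      refine hG.continuousOn.comp (by fun_prop) fun t ht => ?_
      exact ⟨hx₀, hsW ht⟩
    have := hci.out
    rw [intervalIntegrable_iff] at this
    exact this
  · apply ContinuousOn.aestronglyMeasurable _ measurableSet_uIoc
    refine hcd.continuousOn.smul ?_
    · have h1 : ContinuousOn (fun θ : ℝ => fderiv ℂ G (x₀, circleMap c R θ))
          (Set.uIoc 0 (2 * Real.pi)) := by
        refine hcontD.comp (by fun_prop) fun θ _ => ?_
        exact ⟨hx₀, hsW (hcirc θ)⟩
      exact h1.clm_comp continuousOn_const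
  · refine Eventually.of_forall fun θ x hx => ?_
    rw [norm_smul]
    have : ‖deriv (circleMap c R) θ‖ = |R| := by simp [deriv_circleMap]
    rw [this]
    exact mul_le_mul_of_nonneg_left (hbound x hx _ (hcirc θ)) (abs_nonneg R)
  · rw [Set.uIoc_of_le (by positivity)]
    exact MeasureTheory.integrable_const _
  · refine Eventually.of_forall fun θ x hx => ?_
    exact (hdG x (ball_subset_ball (by linarith) hx) _ (hcirc θ)).const_smul _

/-- Directional derivatives of holomorphic functions are holomorphic. -/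
theorem differentiableOn_fderiv_apply [FiniteDimensional ℂ E] [CompleteSpace F] {f : E → F}
    {U : Set E} (hU : IsOpen U) (hf : DifferentiableOn ℂ f U) (v : E) :
    DifferentiableOn ℂ (fun x => fderiv ℂ f x v) U := by
  have : ProperSpace E := FiniteDimensional.proper ℂ E
  intro x₀ hx₀
  apply DifferentiableAt.differentiableWithinAt
  obtain ⟨r, hr, hrU⟩ : ∃ r > 0, ball x₀ (2 * r) ⊆ U := by
    obtain ⟨r, hr, h⟩ := Metric.isOpen_iff.1 hU x₀ hx₀
    exact ⟨r / 4, by positivity, (ball_subset_ball (by linarith)).trans h⟩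
  -- radius for the scalar variable
  set s : ℝ := r / (‖v‖ + 1) / 2 with hs_def
  have hv1 : 0 < ‖v‖ + 1 := by positivity
  have hs : 0 < s := by positivity
  have hmem : ∀ x ∈ ball x₀ r, ∀ t ∈ ball (0 : ℂ) (2 * s), x + t • v ∈ ball x₀ (2 * r) := by
    intro x hx t ht
    rw [mem_ball_zero_iff] at ht
    rw [mem_ball, dist_eq_norm] at hx ⊢
    have h1 : ‖t • v‖ ≤ r := by
      rw [norm_smul]
      calc ‖t‖ * ‖v‖ ≤ (2 * s) * (‖v‖ + 1) := by gcongr; linarith
        _ = r := by rw [hs_def]; field_simp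
    calc ‖x + t • v - x₀‖ = ‖(x - x₀) + t • v‖ := by congr 1; abel
      _ ≤ ‖x - x₀‖ + ‖t • v‖ := norm_add_le _ _
      _ < 2 * r := by linarith
  have hG : DifferentiableOn ℂ (fun p : E × ℂ => (p.2 ^ 2)⁻¹ • f (p.1 + p.2 • v))
      (ball x₀ r ×ˢ (ball (0 : ℂ) (2 * s) \ {0})) := by
    apply DifferentiableOn.smul
    · apply DifferentiableOn.inv
      · fun_prop
      · intro p hp
        exact pow_ne_zero 2 hp.2.2
    · refine hf.comp (by fun_prop) fun p hp => hrU (hmem p.1 hp.1 p.2 hp.2.1)
  have hsW : sphere (0 : ℂ) s ⊆ ball (0 : ℂ) (2 * s) \ {0} := by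
    intro t ht
    rw [mem_sphere_zero_iff_norm] at ht
    refine ⟨by rw [mem_ball_zero_iff, ht]; linarith, fun h => ?_⟩
    rw [mem_singleton_iff] at h
    rw [h, norm_zero] at ht
    exact hs.ne ht
  have key := differentiableOn_circleIntegral (c := 0) (R := s) hs.le isOpen_ball
    (isOpen_ball.sdiff isClosed_singleton) hsW hG
  have hEq : ∀ x ∈ ball x₀ r, fderiv ℂ f x v =
      (2 * Real.pi * Complex.I : ℂ)⁻¹ • ∮ t in C(0, s), (t ^ 2)⁻¹ • f (x + t • v) := by
    intro x hx
    have hfx : DifferentiableAt ℂ f x :=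
      hf.differentiableAt (hU.mem_nhds (hrU (ball_subset_ball (by linarith) hx)))
    have hder : deriv (fun t : ℂ => f (x + t • v)) 0 = fderiv ℂ f x v := by
      have h1 : HasDerivAt (fun t : ℂ => x + t • v) v 0 := by
        simpa using ((hasDerivAt_id (0 : ℂ)).smul_const v).const_add x
      have h2 : HasFDerivAt f (fderiv ℂ f x) (x + (0 : ℂ) • v) := by simpa using hfx.hasFDerivAt
      exact (h2.comp_hasDerivAt (0 : ℂ) h1).deriv
    rw [← hder]
    have hd : DiffContOnCl ℂ (fun t : ℂ => f (x + t • v)) (ball 0 s) := by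
      have : DifferentiableOn ℂ (fun t : ℂ => f (x + t • v)) (ball 0 (2 * s)) :=
        hf.comp (by fun_prop) fun t ht => hrU (hmem x hx t ht)
      exact (this.mono (closedBall_subset_ball (by linarith))).diffContOnCl_ball (le_refl _)
    have h3 := hd.deriv_eq_smul_circleIntegral hs
    simp only [sub_zero, one_div] at h3
    rw [h3, inv_smul_smul₀ Complex.two_pi_I_ne_zero]
  have h2 : DifferentiableAt ℂ (fun x => (2 * Real.pi * Complex.I : ℂ)⁻¹ •
      ∮ t in C(0, s), (t ^ 2)⁻¹ • f (x + t • v)) x₀ :=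
    (key.differentiableAt (ball_mem_nhds x₀ hr)).const_smul _
  refine h2.congr_of_eventuallyEq ?_
  filter_upwards [ball_mem_nhds x₀ hr] with x hx using hEq x hx

theorem contDiffOn_of_differentiableOn [FiniteDimensional ℂ E] [CompleteSpace F] {f : E → F}
    {U : Set E} (hU : IsOpen U) (hf : DifferentiableOn ℂ f U) (n : ℕ) :
    ContDiffOn ℂ n f U := by
  induction n generalizing f with
  | zero => exact_mod_cast contDiffOn_zero.2 hf.continuousOn
  | succ n ih =>
    rw [Nat.cast_add, Nat.cast_one, contDiffOn_succ_iff_fderiv_of_isOpen hU]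
    refine ⟨hf, by simp, ?_⟩
    rw [contDiffOn_clm_apply]
    exact fun v => ih (differentiableOn_fderiv_apply hU hf v)

/-- Iterated derivatives along a line. -/
theorem iteratedDeriv_line {f : E → F} {U : Set E} (hU : IsOpen U) {n : ℕ}
    (hf : ContDiffOn ℂ n f U) {x y : E} {t : ℂ} (ht : x + t • y ∈ U) :
    iteratedDeriv n (fun s : ℂ => f (x + s • y)) t =
      iteratedFDeriv ℂ n f (x + t • y) (fun _ => y) := by
  induction n generalizing t with
  | zero => simp
  | succ n ih =>
    have hf' : ContDiffOn ℂ n f U := hf.of_le (by exact_mod_cast Nat.le_succ n)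
    have hline : Continuous (fun s : ℂ => x + s • y) := by fun_prop
    have hev : ∀ᶠ s in 𝓝 t, x + s • y ∈ U := hline.continuousAt.eventually (hU.mem_nhds ht)
    rw [iteratedDeriv_succ]
    have h1 : iteratedDeriv n (fun s : ℂ => f (x + s • y)) =ᶠ[𝓝 t]
        fun s => iteratedFDeriv ℂ n f (x + s • y) (fun _ => y) := by
      filter_upwards [hev] with s hs using ih hf' hs
    rw [h1.deriv_eq]
    have hcd : ContDiffAt ℂ (n + 1 : ℕ) f (x + t • y) := hf.contDiffAt (hU.mem_nhds ht)
    have h2 : DifferentiableAt ℂ (iteratedFDeriv ℂ n f) (x + t • y) :=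
      hcd.differentiableAt_iteratedFDeriv (by exact_mod_cast Nat.lt_succ_self n)
    have h3 : HasDerivAt (fun s : ℂ => x + s • y) y t := by
      simpa using ((hasDerivAt_id t).smul_const y).const_add x
    have h4 : HasDerivAt (fun s : ℂ => iteratedFDeriv ℂ n f (x + s • y))
        (fderiv ℂ (iteratedFDeriv ℂ n f) (x + t • y) y) t := h2.hasFDerivAt.comp_hasDerivAt t h3
    have h5 : HasDerivAt (fun s : ℂ => iteratedFDeriv ℂ n f (x + s • y) (fun _ => y))
        ((fderiv ℂ (iteratedFDeriv ℂ n f) (x + t • y) y) (fun _ => y)) t :=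
      (ContinuousMultilinearMap.apply ℂ (fun _ : Fin n => E) F (fun _ => y)).hasFDerivAt.comp_hasDerivAt
        t h4
    rw [h5.deriv, iteratedFDeriv_succ_apply_left]
    rfl

/-- Osgood lemma: holomorphic functions on open sets of finite-dimensional spaces are analytic. -/
theorem analyticAt_of_differentiableOn [FiniteDimensional ℂ E] [CompleteSpace F] {f : E → F}
    {U : Set E} (hU : IsOpen U) (hf : DifferentiableOn ℂ f U) {x : E} (hx : x ∈ U) :
    AnalyticAt ℂ f x := by
  have : ProperSpace E := FiniteDimensional.proper ℂ E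
  obtain ⟨r, hr, hrU⟩ : ∃ r > 0, closedBall x r ⊆ U := by
    obtain ⟨r, hr, h⟩ := Metric.isOpen_iff.1 hU x hx
    exact ⟨r / 2, by positivity, (closedBall_subset_ball (by linarith)).trans h⟩
  obtain ⟨C, hC⟩ := (isCompact_closedBall x r).exists_bound_of_continuousOn
    (hf.continuousOn.mono hrU)
  have hC0 : 0 ≤ C := (norm_nonneg _).trans (hC x (mem_closedBall_self hr.le))
  have hcd : ∀ n : ℕ, ContDiffOn ℂ n f U := contDiffOn_of_differentiableOn hU hf
  -- bounds for the iterated derivatives
  have hbd : ∀ (δ : ℝ), 0 < δ → ∀ k : ℕ, ∀ y, dist y x + k * δ ≤ r →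
      ‖iteratedFDeriv ℂ k f y‖ ≤ C / δ ^ k := by
    intro δ hδ k
    induction k with
    | zero =>
      intro y hy
      simp only [CharP.cast_eq_zero, zero_mul, add_zero] at hy
      simpa using hC y hy
    | succ k ih =>
      intro y hy
      push_cast at hy
      rw [← norm_fderiv_iteratedFDeriv]
      have hb : ball y δ ⊆ ball x r := by
        intro z hz
        rw [mem_ball] at hz ⊢
        have : dist z x ≤ dist z y + dist y x := dist_triangle _ _ _
        nlinarith [hδ.le, (Nat.cast_nonneg k : (0 : ℝ) ≤ k), mul_nonneg (Nat.cast_nonneg k : (0 : ℝ) ≤ k) hδ.le]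
      have hd : DifferentiableOn ℂ (iteratedFDeriv ℂ k f) (ball y δ) := by
        intro z hz
        have hzU : z ∈ U := hrU (ball_subset_closedBall (hb hz))
        exact (((hcd (k + 1)).contDiffAt (hU.mem_nhds hzU)).differentiableAt_iteratedFDeriv
          (by exact_mod_cast Nat.lt_succ_self k)).differentiableWithinAt
      have := norm_fderiv_le_of_ball hδ hd (C := C / δ ^ k) (by
        intro z hz
        apply ih
        rw [mem_ball] at hz
        have : dist z x ≤ dist z y + dist y x := dist_triangle _ _ _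
        linarith)
      calc _ ≤ C / δ ^ k / δ := this
        _ = C / δ ^ (k + 1) := by rw [pow_succ, div_div]
  -- the power series
  let p : FormalMultilinearSeries ℂ E F := fun n => ((n.factorial : ℂ)⁻¹) • iteratedFDeriv ℂ n f x
  have hp : ∀ n, ‖p n‖ ≤ C * Real.exp 1 * (Real.exp 1 / r) ^ n := by
    intro n
    have h1 : ‖iteratedFDeriv ℂ n f x‖ ≤ C / (r / (n + 1)) ^ n := by
      apply hbd (r / (n + 1)) (by positivity) n x
      rw [dist_self, zero_add]
      rw [mul_div_assoc', div_le_iff₀ (by positivity)]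
      nlinarith [hr.le]
    have h2 : ((n : ℝ) + 1) ^ n / n.factorial ≤ Real.exp (n + 1) :=
      Real.pow_div_factorial_le_exp _ (by positivity) n
    calc ‖p n‖ = ((n.factorial : ℝ))⁻¹ * ‖iteratedFDeriv ℂ n f x‖ := by
          simp only [p, norm_smul, norm_inv, Complex.norm_natCast]
      _ ≤ ((n.factorial : ℝ))⁻¹ * (C / (r / (n + 1)) ^ n) := by gcongr
      _ = C * (((n : ℝ) + 1) ^ n / n.factorial) / r ^ n := by
          rw [div_pow]; field_simp
      _ ≤ C * Real.exp (n + 1) / r ^ n := by gcongr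
      _ = C * Real.exp 1 * (Real.exp 1 / r) ^ n := by
          rw [Real.exp_add, div_pow, ← Real.exp_nat_mul]; ring_nf
  have hρ : 0 < r / Real.exp 1 := by positivity
  set ρ : NNReal := ⟨r / Real.exp 1, hρ.le⟩ with hρdef
  have hrad : (ρ : ENNReal) ≤ p.radius := by
    apply p.le_radius_of_bound (C * Real.exp 1)
    intro n
    have : ((ρ : NNReal) : ℝ) = r / Real.exp 1 := rfl
    rw [this]
    calc ‖p n‖ * (r / Real.exp 1) ^ n ≤ (C * Real.exp 1 * (Real.exp 1 / r) ^ n) * (r / Real.exp 1) ^ n := by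
          gcongr; exact hp n
      _ = C * Real.exp 1 := by
          rw [mul_assoc, ← mul_pow]
          have : Real.exp 1 / r * (r / Real.exp 1) = 1 := by field_simp
          rw [this, one_pow, mul_one]
  refine ⟨p, ρ, hrad, by exact_mod_cast hρ, ?_⟩
  intro y hy
  have hy' : ‖y‖ < r / Real.exp 1 := by
    rw [mem_eball, edist_zero_right] at hy
    exact_mod_cast (show (‖y‖₊ : ENNReal) < (ρ : ENNReal) from hy)
  have hyr : ‖y‖ < r := by
    refine hy'.trans_le ?_
    apply div_le_self hr.le
    have := Real.add_one_le_exp 1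
    linarith
  have hd : DifferentiableOn ℂ (fun t : ℂ => f (x + t • y)) (ball 0 (r / (‖y‖ + (r - ‖y‖) / 2))) := by
    refine hf.comp (by fun_prop) fun t ht => hrU ?_
    rw [mem_ball_zero_iff] at ht
    rw [mem_closedBall, dist_eq_norm, add_sub_cancel_left, norm_smul]
    have hpos : 0 < ‖y‖ + (r - ‖y‖) / 2 := by linarith [norm_nonneg y]
    rw [lt_div_iff₀ hpos] at ht
    have : ‖t‖ * ‖y‖ ≤ ‖t‖ * (‖y‖ + (r - ‖y‖) / 2) := by
      apply mul_le_mul_of_nonneg_left _ (norm_nonneg _)
      linarith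
    linarith
  have h1 : (1 : ℂ) ∈ ball (0 : ℂ) (r / (‖y‖ + (r - ‖y‖) / 2)) := by
    rw [mem_ball_zero_iff, norm_one]
    have hpos : 0 < ‖y‖ + (r - ‖y‖) / 2 := by linarith [norm_nonneg y]
    rw [lt_div_iff₀ hpos]
    linarith
  have := Complex.hasSum_taylorSeries_on_ball hd h1
  simp only [sub_zero, one_pow, one_smul] at this
  convert this using 2 with n
  rw [iteratedDeriv_line hU (hcd n) (by simpa using hx)]
  simp [p]

theorem analyticOnNhd_of_differentiableOn [FiniteDimensional ℂ E] [CompleteSpace F] {f : E → F}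
    {U : Set E} (hU : IsOpen U) (hf : DifferentiableOn ℂ f U) : AnalyticOnNhd ℂ f U :=
  fun _ hx => analyticAt_of_differentiableOn hU hf hx

end Vale.Agent.P097.Hol
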