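import Vale.Agent.P097.LR.Abs
import Vale.Agent.P097.LR.Lfe
import Vale.Agent.P097.H209.Mem
import Vale.Agent.P097.H490.Vl
import Vale.Agent.P097.H490.K0
import Vale.Agent.P097.H500.Lin
import Vale.Agent.P097.H60.LfcU
import Vale.Agent.P097.H779.Lre
import Vale.Agent.P097.H779.Pare
import Vale.Agent.P097.H795.Main
import Vale.Agent.P097.H795.Greg1
import Vale.Agent.P097.H807.Per
import Vale.Agent.P097.H807.Rpos
import Vale.Agent.P097.H809.Cls
import Vale.Agent.P097.H809.S12
import Vale.Agent.P097.H831.Ode
import Vale.Agent.P097.H831.EFc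
import Vale.Agent.P097.H896.Iso
import Vale.Agent.P097.H917.BQ
import Vale.Agent.P097.H970.K1
import Vale.Agent.P097.H970.Phi
import Vale.Agent.P097.H407.Final

/-! # P097 / H407 : the chain of the linear rigidity -/

set_option linter.all false

namespace Vale.Agent.P097.H407

open Vale.Agent.P097

theorem rpos : LR.RPOS := H807.rpos H831.efac H831.ode
theorem per : LR.PER := H807.per H831.efac H831.ode
theorem bq : LR.BQ := H917.bq H831.efac H831.ode
theorem pare : LR.PARE := H779.pare H831.efac H831.ode rpos per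
theorem lre : LR.LRE := H779.lre H831.efac rpos bq
theorem lfe : LR.LFE := LR.lfe_of pare H60.lFC lre
theorem s12 : LR.S12 := H809.s12 H490.vl H490.k0 H795.gREG1 H795.gREG H970.phi
theorem abs : LR.ABS := LR.abs_of s12 H970.phi H795.gREG H490.vl H970.k1 H896.iso
theorem lin : LR.LIN := H500.Lin.lin_of abs H809.cls lfe
theorem lin5 : LR.LIN5 := H500.Lin.lin5_of lin H209.mem
theorem stLIN : TOP.StLIN := stLIN_of lin5

end Vale.Agent.P097.H407
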