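import Vale.Agent.P097.H407.Top

set_option linter.all false

/-! # P097 / H407 : characterisation of ellipses by pointwise identities; connected families -/

namespace Vale.Agent.P097.H407

open Vale.Agent.P097 Vale.Agent.P097.FD Vale.Agent.P097.TOP Filter
open scoped ContDiff Topology

/-- the parameters of an ellipse read off from values of the support function -/
noncomputable def pa (h : ℝ → ℝ) : ℝ := (h 0 - h Real.pi) / 2
noncomputable def pb (h : ℝ → ℝ) : ℝ := (h (Real.pi / 2) - h (3 * (Real.pi / 2))) / 2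
noncomputable def pS (h : ℝ → ℝ) (x : ℝ) : ℝ := h x - pa h * Real.cos x - pb h * Real.sin x
noncomputable def pA (h : ℝ → ℝ) : ℝ := (pS h 0 ^ 2 + pS h (Real.pi / 2) ^ 2) / 2
noncomputable def pB (h : ℝ → ℝ) : ℝ := (pS h 0 ^ 2 - pS h (Real.pi / 2) ^ 2) / 2
noncomputable def pC (h : ℝ → ℝ) : ℝ := pS h (Real.pi / 4) ^ 2 - pA h
noncomputable def par (h : ℝ → ℝ) : Fin 5 → ℝ := ![pa h, pb h, pA h, pB h, pC h]

/-- the identity which characterises ellipses -/
def Idt (h : ℝ → ℝ) : Prop := ∀ x, pS h x ^ 2 = EQ (par h) x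

lemma EQ_par (h : ℝ → ℝ) (x : ℝ) :
    EQ (par h) x = pA h + pB h * Real.cos (2 * x) + pC h * Real.sin (2 * x) := rfl

lemma EQ_pi (v : Fin 5 → ℝ) (x : ℝ) : EQ v (x + Real.pi) = EQ v x := by
  unfold EQ
  rw [mul_add, Real.cos_add_two_pi, Real.sin_add_two_pi]

lemma pa_EF (w : Fin 5 → ℝ) : pa (EF w) = w 0 := by
  have h1 : EQ w Real.pi = EQ w 0 := by simpa using EQ_pi w 0
  unfold pa EF
  rw [h1]
  simp

lemma pb_EF (w : Fin 5 → ℝ) : pb (EF w) = w 1 := by
  have h1 : EQ w (3 * (Real.pi / 2)) = EQ w (Real.pi / 2) := by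
    rw [← EQ_pi w (Real.pi / 2)]; congr 1; ring
  have h2 : Real.cos (3 * (Real.pi / 2)) = 0 := by
    rw [show 3 * (Real.pi / 2) = Real.pi / 2 + Real.pi by ring, Real.cos_add_pi,
      Real.cos_pi_div_two, neg_zero]
  have h3 : Real.sin (3 * (Real.pi / 2)) = -1 := by
    rw [show 3 * (Real.pi / 2) = Real.pi / 2 + Real.pi by ring, Real.sin_add_pi,
      Real.sin_pi_div_two]
  unfold pb EF
  rw [h1, h2, h3, Real.cos_pi_div_two, Real.sin_pi_div_two]
  ring

lemma pS_EF (w : Fin 5 → ℝ) (x : ℝ) : pS (EF w) x = √(EQ w x) := by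
  unfold pS
  rw [pa_EF, pb_EF]
  unfold EF
  ring

lemma par_EF {w : Fin 5 → ℝ} (hw : w ∈ EP) : par (EF w) = w := by
  have hs : ∀ x, pS (EF w) x ^ 2 = EQ w x := fun x => by
    rw [pS_EF, Real.sq_sqrt (EQ_pos hw x).le]
  have e0 : EQ w 0 = w 2 + w 3 := by unfold EQ; simp
  have e1 : EQ w (Real.pi / 2) = w 2 - w 3 := by
    unfold EQ
    rw [show 2 * (Real.pi / 2) = Real.pi by ring]
    simp
    ring
  have e2 : EQ w (Real.pi / 4) = w 2 + w 4 := by
    unfold EQ
    rw [show 2 * (Real.pi / 4) = Real.pi / 2 by ring]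
    simp
  have hA : pA (EF w) = w 2 := by unfold pA; rw [hs, hs, e0, e1]; ring
  have hB : pB (EF w) = w 3 := by unfold pB; rw [hs, hs, e0, e1]; ring
  have hC : pC (EF w) = w 4 := by unfold pC; rw [hs, hA, e2]; ring
  ext i
  fin_cases i
  · exact pa_EF w
  · exact pb_EF w
  · exact hA
  · exact hB
  · exact hC

lemma idt_EF {w : Fin 5 → ℝ} (hw : w ∈ EP) : Idt (EF w) := fun x => by
  rw [par_EF hw, pS_EF, Real.sq_sqrt (EQ_pos hw x).le]

/-- the minimum of `EQ` -/
lemma exists_min (v : Fin 5 → ℝ) : ∃ x, EQ v x = v 2 - er v := by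
  set z : ℂ := ⟨v 3, v 4⟩ with hz
  have hnz : ‖z‖ = er v := by
    rw [Complex.norm_def, Complex.normSq_mk]
    unfold er
    congr 1
    ring
  have h3 : v 3 = er v * Real.cos z.arg := by rw [← hnz, Complex.norm_mul_cos_arg]
  have h4 : v 4 = er v * Real.sin z.arg := by rw [← hnz, Complex.norm_mul_sin_arg]
  refine ⟨(z.arg + Real.pi) / 2, ?_⟩
  unfold EQ
  rw [show 2 * ((z.arg + Real.pi) / 2) = z.arg + Real.pi by ring, Real.cos_add_pi, Real.sin_add_pi]
  have h5 := Real.sin_sq_add_cos_sq z.arg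
  rw [h3, h4]
  linear_combination -er v * h5

/-- a smooth table which satisfies the identity is an ellipse -/
theorem ell_of_idt {h : ℝ → ℝ} (hs : SmoothTable h) (hI : Idt h) :
    par h ∈ EP ∧ h = EF (par h) := by
  set p := par h with hp
  have hp0 : p 0 = pa h := rfl
  have hp1 : p 1 = pb h := rfl
  have hd : ∀ x, HasDerivAt h (deriv h x) x := fun x =>
    (hs.1.differentiable (by simp) x).hasDerivAt
  have hdd : ∀ x, HasDerivAt (deriv h) (deriv (deriv h) x) x := fun x =>
    ((hs.1.iterate_deriv 1).differentiable (by simp) x).hasDerivAt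
  -- derivatives of `S`
  set S : ℝ → ℝ := pS h with hS
  set S1 : ℝ → ℝ := fun x => deriv h x + pa h * Real.sin x - pb h * Real.cos x with hS1
  set S2 : ℝ → ℝ := fun x => deriv (deriv h) x + pa h * Real.cos x + pb h * Real.sin x with hS2
  have dS : ∀ x, HasDerivAt S (S1 x) x := fun x => by
    have : HasDerivAt S _ x := ((hd x).sub ((Real.hasDerivAt_cos x).const_mul (pa h))).sub
      ((Real.hasDerivAt_sin x).const_mul (pb h))
    refine this.congr_deriv ?_
    rw [hS1]; ring
  have dS1 : ∀ x, HasDerivAt S1 (S2 x) x := fun x => by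
    have : HasDerivAt S1 _ x := ((hdd x).add ((Real.hasDerivAt_sin x).const_mul (pa h))).sub
      ((Real.hasDerivAt_cos x).const_mul (pb h))
    refine this.congr_deriv ?_
    rw [hS2]; ring
  have hrad : ∀ x, 0 < S x + S2 x := fun x => by
    have := hs.2.2 x
    have e : S x + S2 x = h x + deriv (deriv h) x := by
      rw [hS, hS2]; unfold pS; ring
    rw [e]; exact this
  have hq : ∀ x, S x ^ 2 = EQ p x := hI
  -- first derivative of the identity
  have h1 : ∀ x, S x * S1 x = ER p x := fun x => by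
    have e1 : HasDerivAt (fun x => S x ^ 2) (2 * S x * S1 x) x :=
      HasDerivAt.congr_deriv (f := fun x => S x ^ 2) ((dS x).pow 2) (by norm_num)
    have e2 : HasDerivAt (fun x => S x ^ 2) (2 * ER p x) x := by
      have : (fun x => S x ^ 2) = EQ p := funext hq
      rw [this]; exact hasDerivAt_EQ p x
    have := e1.unique e2
    linarith
  have h2 : ∀ x, S1 x ^ 2 + S x * S2 x = -2 * (S x ^ 2 - p 2) := fun x => by
    have e1 : HasDerivAt (fun x => S x * S1 x) (S1 x * S1 x + S x * S2 x) x := (dS x).mul (dS1 x)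
    have e2 : HasDerivAt (fun x => S x * S1 x) (-2 * (EQ p x - p 2)) x := by
      have : (fun x => S x * S1 x) = ER p := funext h1
      rw [this]; exact hasDerivAt_ER p x
    have := e1.unique e2
    rw [hq]
    linarith [sq (S1 x)]
  have key : ∀ x, S x ^ 3 * (S x + S2 x) = p 2 ^ 2 - er p ^ 2 := fun x => by
    have e := er_eq p x
    rw [← hq, ← h1] at e
    linear_combination (S x ^ 2) * h2 x - e
  have hmin : er p ≤ p 2 := by
    obtain ⟨x, hx⟩ := exists_min p
    rw [← hq] at hx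
    have := sq_nonneg (S x)
    linarith
  have h0 := er_nonneg p
  have hlt : er p < p 2 := by
    rcases hmin.eq_or_lt with he | he
    · exfalso
      have hz : ∀ x, S x = 0 := fun x => by
        have := key x
        rw [he, sub_self] at this
        rcases mul_eq_zero.1 this with h3 | h3
        · exact pow_eq_zero_iff (by norm_num) |>.1 h3
        · exact absurd h3 (hrad x).ne'
      have hz1 : ∀ x, S1 x = 0 := fun x => by
        have e2 : HasDerivAt S 0 x := by
          have : S = fun _ => 0 := funext hz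
          rw [this]; exact hasDerivAt_const x 0
        exact (dS x).unique e2
      have hz2 : ∀ x, S2 x = 0 := fun x => by
        have e2 : HasDerivAt S1 0 x := by
          have : S1 = fun _ => 0 := funext hz1
          rw [this]; exact hasDerivAt_const x 0
        exact (dS1 x).unique e2
      have := hrad 0
      rw [hz, hz2] at this
      linarith
    · exact he
  refine ⟨hlt, funext fun x => ?_⟩
  have hk := key x
  have hpos : 0 < p 2 ^ 2 - er p ^ 2 := by nlinarith
  have hSx : 0 < S x := by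
    by_contra hc
    push Not at hc
    have h3 : S x ^ 3 ≤ 0 := by
      have := sq_nonneg (S x)
      nlinarith
    have := hrad x
    nlinarith
  have hSs : S x = √(EQ p x) := by
    rw [← hq, Real.sqrt_sq hSx.le]
  unfold EF
  rw [← hSs, hS, hp0, hp1]
  unfold pS
  ring

theorem ell_iff {h : ℝ → ℝ} (hs : SmoothTable h) : (∃ w ∈ EP, h = EF w) ↔ Idt h := by
  constructor
  · rintro ⟨w, hw, rfl⟩
    exact idt_EF hw
  · intro hI
    obtain ⟨h1, h2⟩ := ell_of_idt hs hI
    exact ⟨_, h1, h2⟩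

/-- support functions of discs -/
def IsDisc (h : ℝ → ℝ) : Prop := ∃ R a b : ℝ, ∀ x, h x = R + a * Real.cos x + b * Real.sin x

lemma isDisc_EF {w : Fin 5 → ℝ} (h3 : w 3 = 0) (h4 : w 4 = 0) : IsDisc (EF w) := by
  refine ⟨√(w 2), w 0, w 1, fun x => ?_⟩
  unfold EF EQ
  rw [h3, h4]
  simp
  ring

lemma nc_of_not_disc {w : Fin 5 → ℝ} (h : ¬ IsDisc (EF w)) : w 3 ≠ 0 ∨ w 4 ≠ 0 := by
  by_contra hc
  push Not at hc
  exact h (isDisc_EF hc.1 hc.2)

/-- neighbourhoods of a non-circular ellipse in a `C^∞`-continuous family -/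
theorem nhds_ell (HO : StOPEN) {X : Type*} {l : Filter X} {H : X → ℝ → ℝ} {e : ℝ → ℝ}
    (he : ∃ w ∈ EP, e = EF w) (hnd : ¬ IsDisc e) {η : ℝ} (hη : 0 < η)
    (hc : ∀ i : ℕ, TendstoUniformly (fun x => iteratedDeriv i (H x)) (iteratedDeriv i e) l) :
    ∀ᶠ x in l, SmoothTable (H x) → Collar (H x) η → ∃ w ∈ EP, H x = EF w := by
  obtain ⟨w, hw, rfl⟩ := he
  obtain ⟨k, κ, hκ, hk⟩ := local_Ck HO hw (nc_of_not_disc hnd) hη
  have h1 : ∀ᶠ x in l, ∀ i ∈ Finset.range (k + 1), ∀ s,
      |iteratedDeriv i (H x) s - iteratedDeriv i (EF w) s| < κ := by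
    rw [Filter.eventually_all_finset]
    intro i _
    have h2 := Metric.tendstoUniformly_iff.1 (hc i) κ hκ
    filter_upwards [h2] with x hx s
    have := hx s
    rwa [dist_comm, Real.dist_eq] at this
  filter_upwards [h1] with x hx hs hcol
  exact hk (H x) hs hcol fun i hi s => hx i (Finset.mem_range.2 (by omega)) s

lemma continuous_idt {X : Type*} [TopologicalSpace X] {H : X → ℝ → ℝ}
    (hc : ∀ s, Continuous fun x => H x s) (s : ℝ) :
    Continuous (fun x => pS (H x) s ^ 2 - EQ (par (H x)) s) := by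
  simp only [EQ_par]
  unfold pC pB pA pS pb pa
  fun_prop

/-- connected families of tables with a uniform collar which contain no disc -/
theorem connected (HO : StOPEN) {X : Type*} [TopologicalSpace X] [PreconnectedSpace X]
    (H : X → ℝ → ℝ) {η : ℝ} (hη : 0 < η) (hT : ∀ x, SmoothTable (H x) ∧ Collar (H x) η)
    (hc : ∀ (i : ℕ) (x0 : X),
      TendstoUniformly (fun x => iteratedDeriv i (H x)) (iteratedDeriv i (H x0)) (𝓝 x0))
    (hnd : ∀ x, ¬ IsDisc (H x)) (x0 : X) (he : ∃ w ∈ EP, H x0 = EF w) :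
    ∀ x, ∃ w ∈ EP, H x = EF w := by
  have hcont : ∀ s, Continuous fun x => H x s := fun s => by
    rw [continuous_iff_continuousAt]
    intro x
    have := (hc 0 x).tendsto_at s
    simpa [ContinuousAt] using this
  have hcl : IsClosed {x | ∃ w ∈ EP, H x = EF w} := by
    have e : {x | ∃ w ∈ EP, H x = EF w} = ⋂ s : ℝ, {x | pS (H x) s ^ 2 - EQ (par (H x)) s = 0} := by
      ext x
      simp only [Set.mem_setOf_eq, Set.mem_iInter]
      rw [ell_iff (hT x).1]
      exact forall_congr' fun s => sub_eq_zero.symm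
    rw [e]
    exact isClosed_iInter fun s => isClosed_eq (continuous_idt hcont s) continuous_const
  have hop : IsOpen {x | ∃ w ∈ EP, H x = EF w} := by
    rw [isOpen_iff_mem_nhds]
    intro x hx
    have := nhds_ell HO (H := H) hx (hnd x) hη (fun i => hc i x)
    filter_upwards [this] with y hy using hy (hT y).1 (hT y).2
  have huniv := IsClopen.eq_univ ⟨hcl, hop⟩ ⟨x0, he⟩
  intro x
  have : x ∈ {x | ∃ w ∈ EP, H x = EF w} := by rw [huniv]; trivial
  exact this

/-- real-analytic families of tables through a non-circular ellipse -/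
theorem analytic_family (HO : StOPEN) {I : Set ℝ} (hI : IsPreconnected I) (H : ℝ → ℝ → ℝ)
    (hT : ∀ t ∈ I, SmoothTable (H t)) (ha : ∀ s, AnalyticOnNhd ℝ (fun t => H t s) I)
    {t0 : ℝ} (ht0 : t0 ∈ I) (he : ∃ w ∈ EP, H t0 = EF w) (hnd : ¬ IsDisc (H t0))
    (hc : ∀ i : ℕ,
      TendstoUniformly (fun t => iteratedDeriv i (H t)) (iteratedDeriv i (H t0)) (𝓝[I] t0))
    {η : ℝ} (hη : 0 < η) (hcol : ∃ᶠ t in 𝓝[I \ {t0}] t0, Collar (H t) η) :
    ∀ t ∈ I, ∃ w ∈ EP, H t = EF w := by
  have h1 : ∃ᶠ t in 𝓝[I \ {t0}] t0, Idt (H t) := by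
    have h2 := nhds_ell HO (l := 𝓝[I] t0) (H := H) he hnd hη hc
    have h3 : ∀ᶠ t in 𝓝[I \ {t0}] t0, SmoothTable (H t) → Collar (H t) η → ∃ w ∈ EP, H t = EF w :=
      h2.filter_mono (nhdsWithin_mono _ Set.diff_subset)
    have h4 : ∀ᶠ t in 𝓝[I \ {t0}] t0, t ∈ I := by
      filter_upwards [self_mem_nhdsWithin] with t ht using ht.1
    refine (hcol.and_eventually (h3.and h4)).mono ?_
    rintro t ⟨a, b, c⟩
    exact (ell_iff (hT t c)).1 (b (hT t c) a)
  have h2 : ∀ s, Set.EqOn (fun t => pS (H t) s ^ 2 - EQ (par (H t)) s) 0 I := by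
    intro s
    have han : AnalyticOnNhd ℝ (fun t => pS (H t) s ^ 2 - EQ (par (H t)) s) I := by
      simp only [EQ_par]
      unfold pC pB pA pS pb pa
      intro t ht
      have a := fun s => ha s t ht
      have a1 := a s
      have a2 := a 0
      have a3 := a Real.pi
      have a4 := a (Real.pi / 2)
      have a5 := a (3 * (Real.pi / 2))
      have a6 := a (Real.pi / 4)
      fun_prop
    apply han.eqOn_zero_of_preconnected_of_frequently_eq_zero hI ht0
    refine (h1.filter_mono (nhdsWithin_mono _ ?_)).mono fun t ht => ?_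
    · intro t ht
      exact ht.2
    · exact sub_eq_zero.2 (ht s)
  intro t ht
  rw [ell_iff (hT t ht)]
  intro s
  exact sub_eq_zero.1 (h2 s ht)

end Vale.Agent.P097.H407
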