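import Vale.Agent.P097.H407.Final

/-! # P097 / H407 : finite determinacy of the tables with a collar -/

set_option linter.all false

namespace Vale.Agent.P097.H407

open Vale.Agent.P097 Vale.Agent.P097.FD Vale.Agent.P097.TOP Vale.Agent.P097.Reg
open Filter MeasureTheory
open scoped ContDiff Topology

/-- radius of curvature at least `c` and the first `k` derivatives bounded by `A` -/
def Bdk (k : ℕ) (A : ℕ → ℝ) (c : ℝ) (h : ℝ → ℝ) : Prop :=
  (∀ x, c ≤ h x + deriv (deriv h) x) ∧ ∀ i ≤ k, ∀ x, |iteratedDeriv i h x| ≤ A i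

lemma cf_cs {g : ℝ → ℝ} (hg : Continuous g) (m : ℕ) : ‖R4.cf g m‖ ≤
    (2 * Real.pi)⁻¹ * (|∫ t in (0 : ℝ)..(2 * Real.pi), g t * Real.cos (m * t)| +
      |∫ t in (0 : ℝ)..(2 * Real.pi), g t * Real.sin (m * t)|) := by
  unfold R4.cf
  have e : ∀ x : ℝ, (g x : ℂ) * Complex.exp (-(Complex.I * ((m : ℤ) : ℂ) * x)) =
      ((g x * Real.cos (m * x) : ℝ) : ℂ) - ((g x * Real.sin (m * x) : ℝ) : ℂ) * Complex.I := by
    intro x
    have h1 : -(Complex.I * ((m : ℤ) : ℂ) * x) = ((-(m * x) : ℝ) : ℂ) * Complex.I := by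
      push_cast; ring
    rw [h1, Complex.exp_mul_I, ← Complex.ofReal_cos, ← Complex.ofReal_sin, Real.cos_neg,
      Real.sin_neg]
    push_cast
    ring
  simp only [e]
  rw [intervalIntegral.integral_sub (by apply Continuous.intervalIntegrable; fun_prop)
    (by apply Continuous.intervalIntegrable; fun_prop), intervalIntegral.integral_mul_const,
    intervalIntegral.integral_ofReal, intervalIntegral.integral_ofReal, norm_mul, norm_inv,
    Complex.norm_real, Real.norm_of_nonneg (by positivity : (0 : ℝ) ≤ 2 * Real.pi)]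
  refine mul_le_mul_of_nonneg_left ((norm_sub_le _ _).trans ?_) (by positivity)
  rw [norm_mul, Complex.norm_I, mul_one, Complex.norm_real, Complex.norm_real]
  rfl

lemma sum_Icc_le {f : ℤ → ℝ} (h0 : ∀ m, 0 ≤ f m) (he : ∀ m, f (-m) = f m) (N : ℕ) :
    ∑ m ∈ Finset.Icc (-(N : ℤ)) N, f m ≤ 2 * ∑ m ∈ Finset.range (N + 1), f (m : ℤ) := by
  classical
  set s : Finset ℤ := (Finset.range (N + 1)).image (fun n : ℕ => (n : ℤ))
  set t : Finset ℤ := (Finset.range (N + 1)).image (fun n : ℕ => -(n : ℤ))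
  have hs : ∑ m ∈ s, f m = ∑ m ∈ Finset.range (N + 1), f (m : ℤ) := by
    rw [Finset.sum_image]
    intro a _ b _ hab
    exact Nat.cast_injective (R := ℤ) hab
  have ht : ∑ m ∈ t, f m = ∑ m ∈ Finset.range (N + 1), f (m : ℤ) := by
    rw [Finset.sum_image]
    · exact Finset.sum_congr rfl fun m _ => he m
    · intro a _ b _ hab
      have : (a : ℤ) = b := neg_injective hab
      exact_mod_cast this
  have hsub : Finset.Icc (-(N : ℤ)) N ⊆ s ∪ t := by
    intro m hm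
    rw [Finset.mem_Icc] at hm
    rw [Finset.mem_union, Finset.mem_image, Finset.mem_image]
    rcases le_total 0 m with h | h
    · left
      exact ⟨m.toNat, Finset.mem_range.2 (by omega), by omega⟩
    · right
      exact ⟨(-m).toNat, Finset.mem_range.2 (by omega), by omega⟩
  have h1 : ∑ m ∈ Finset.Icc (-(N : ℤ)) N, f m ≤ ∑ m ∈ s ∪ t, f m :=
    Finset.sum_le_sum_of_subset_of_nonneg hsub fun m _ _ => h0 m
  have h2 := Finset.sum_union_inter (s₁ := s) (s₂ := t) (f := f)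
  have h3 : 0 ≤ ∑ m ∈ s ∩ t, f m := Finset.sum_nonneg fun m _ => h0 m
  rw [hs, ht] at h2
  linarith

/-- finite determinacy, with a Lipschitz estimate -/
theorem finite_det {η c : ℝ} (A : ℕ → ℝ) (hη : 0 < η) (hc : 0 < c) : ∃ k N : ℕ, ∀ h₁ h₂ : ℝ → ℝ,
    SmoothTable h₁ → SmoothTable h₂ → NInt h₁ η → NInt h₂ η → Bdk k A c h₁ → Bdk k A c h₂ →
      ∀ x, |h₁ x - h₂ x| ≤ ∑ m ∈ Finset.range (N + 1),
        (|∫ t in (0 : ℝ)..(2 * Real.pi), (h₁ t - h₂ t) * Real.cos (m * t)| +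
          |∫ t in (0 : ℝ)..(2 * Real.pi), (h₁ t - h₂ t) * Real.sin (m * t)|) := by
  obtain ⟨k, β, M, hβ, hM, HR⟩ := stR_fin_r η c A hη hc
  obtain ⟨β', C, hβ', hC, HF⟩ := stF_r η β M hη hβ hM
  have hsum : Summable fun m : ℤ => Real.exp (-(β' * |(m : ℝ)|)) := summable_exp_abs hβ'
  have hsum2 : Summable fun m : ℤ => C * Real.exp (-(β' * |(m : ℝ)|)) := hsum.mul_left C
  obtain ⟨s0, hs0⟩ := Filter.eventually_atTop.1
    ((tendsto_tsum_compl_atTop_zero fun m : ℤ => C * Real.exp (-(β' * |(m : ℝ)|))).eventually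
      (gt_mem_nhds (by norm_num : (0 : ℝ) < 1 / 2)))
  obtain ⟨N, hN⟩ : ∃ N : ℕ, s0 ⊆ Finset.Icc (-(N : ℤ)) N := by
    refine ⟨∑ m ∈ s0, m.natAbs, fun m hm => ?_⟩
    have h1 : m.natAbs ≤ ∑ m ∈ s0, m.natAbs := Finset.single_le_sum
      (f := fun m : ℤ => m.natAbs) (fun _ _ => Nat.zero_le _) hm
    rw [Finset.mem_Icc]
    omega
  have htail := hs0 _ hN
  refine ⟨k, N, fun h₁ h₂ S1 S2 n1 n2 b1 b2 => ?_⟩
  have R1 := rsn_of_nint S1 hη n1
  have R2 := rsn_of_nint S2 hη n2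
  have T1 := HR h₁ S1.1 S1.2.1 b1.1 b1.2 R1.cst
  have T2 := HR h₂ S2.1 S2.2.1 b2.1 b2.2 R2.cst
  set g : ℝ → ℝ := fun x => h₁ x - h₂ x with hg
  have hgs : ContDiff ℝ ∞ g := S1.1.sub S2.1
  have hgp : ∀ x, g (x + 2 * Real.pi) = g x := fun x => by
    show h₁ (x + 2 * Real.pi) - h₂ (x + 2 * Real.pi) = h₁ x - h₂ x
    rw [S1.2.1, S2.2.1]
  -- the maximum
  obtain ⟨x0, -, hmax⟩ := (isCompact_Icc (a := (0 : ℝ)) (b := 2 * Real.pi)).exists_isMaxOn
    (Set.nonempty_Icc.2 Real.two_pi_pos.le) (hgs.continuous.abs).continuousOn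
  have hb : ∀ x, |g x| ≤ |g x0| := by
    intro x
    have hper : Function.Periodic g (2 * Real.pi) := hgp
    obtain ⟨y, hy, hxy⟩ := hper.exists_mem_Ico₀ Real.two_pi_pos x
    rw [hxy]
    exact hmax ⟨hy.1, hy.2.le⟩
  set b : ℝ := |g x0| with hbd
  obtain ⟨G, g1, g2, g3⟩ := HF h₁ h₂ T1 T2 R1.cst R2.cst b hb
  have hcf : ∀ m : ℤ, ‖R4.cf g m‖ ≤ C * b * Real.exp (-(β' * |(m : ℝ)|)) := fun m =>
    cf_strip hβ' g1 g2 (h := g) (fun x => by rw [g3]; push_cast [hg]; rfl) hgp m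
  have hcs : Summable fun m : ℤ => ‖R4.cf g m‖ := by
    have := R4.cf_summable hgs hgp 0
    simpa using this
  have hinv := R4.inversion hgs.continuous hgp hcs x0
  have hle : b ≤ ∑' m : ℤ, ‖R4.cf g m‖ := by
    have h1 := norm_tsum_le_tsum_norm (f := fun m : ℤ => R4.cf g m * Complex.exp (Complex.I * m * x0))
      (by
        refine hcs.congr fun m => ?_
        rw [norm_mul]
        have : ‖Complex.exp (Complex.I * m * x0)‖ = 1 := by
          rw [show Complex.I * m * x0 = ((m * x0 : ℝ) : ℂ) * Complex.I by push_cast; ring,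
            Complex.norm_exp_ofReal_mul_I]
        rw [this, mul_one])
    rw [hinv.tsum_eq] at h1
    rw [Complex.norm_real, Real.norm_eq_abs] at h1
    refine h1.trans (le_of_eq ?_)
    refine tsum_congr fun m => ?_
    rw [norm_mul]
    have : ‖Complex.exp (Complex.I * m * x0)‖ = 1 := by
      rw [show Complex.I * m * x0 = ((m * x0 : ℝ) : ℂ) * Complex.I by push_cast; ring,
        Complex.norm_exp_ofReal_mul_I]
    rw [this, mul_one]
  have hsplit := (hcs.sum_add_tsum_compl (s := Finset.Icc (-(N : ℤ)) N))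
  have hb0 : 0 ≤ b := abs_nonneg _
  have ht2 : ∑' m : ((Finset.Icc (-(N : ℤ)) N : Finset ℤ) : Set ℤ)ᶜ.Elem, ‖R4.cf g m‖ ≤ b * (1 / 2) := by
    have hc1 : Summable fun m : ((Finset.Icc (-(N : ℤ)) N : Finset ℤ) : Set ℤ)ᶜ.Elem =>
        C * Real.exp (-(β' * |((m : ℤ) : ℝ)|)) := hsum2.subtype _
    calc ∑' m : ((Finset.Icc (-(N : ℤ)) N : Finset ℤ) : Set ℤ)ᶜ.Elem, ‖R4.cf g m‖
        ≤ ∑' m : ((Finset.Icc (-(N : ℤ)) N : Finset ℤ) : Set ℤ)ᶜ.Elem,
          b * (C * Real.exp (-(β' * |((m : ℤ) : ℝ)|))) := by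
          refine Summable.tsum_le_tsum (fun m => ?_) (hcs.subtype _) (hc1.mul_left b)
          have := hcf m
          linarith
      _ = b * ∑' m : ((Finset.Icc (-(N : ℤ)) N : Finset ℤ) : Set ℤ)ᶜ.Elem,
          C * Real.exp (-(β' * |((m : ℤ) : ℝ)|)) := tsum_mul_left
      _ ≤ b * (1 / 2) := by
          refine mul_le_mul_of_nonneg_left (le_of_lt ?_) hb0
          exact htail
  have hfin := sum_Icc_le (f := fun m => ‖R4.cf g m‖) (fun m => norm_nonneg _)
    (fun m => by rw [R4.cf_conj]; exact RCLike.norm_conj _) N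
  have hpi := Real.pi_gt_three
  set T : ℝ := ∑ m ∈ Finset.range (N + 1),
    (|∫ t in (0 : ℝ)..(2 * Real.pi), (h₁ t - h₂ t) * Real.cos (m * t)| +
      |∫ t in (0 : ℝ)..(2 * Real.pi), (h₁ t - h₂ t) * Real.sin (m * t)|) with hT
  have hT0 : 0 ≤ T := Finset.sum_nonneg fun m _ => by positivity
  have hfT : ∑ m ∈ Finset.range (N + 1), ‖R4.cf g (m : ℤ)‖ ≤ (2 * Real.pi)⁻¹ * T := by
    rw [hT, Finset.mul_sum]
    exact Finset.sum_le_sum fun m _ => cf_cs hgs.continuous m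
  have hinv4 : (2 * Real.pi)⁻¹ ≤ 1 / 4 := by
    rw [inv_eq_one_div]
    apply one_div_le_one_div_of_le (by norm_num)
    linarith
  have h5 : (2 * Real.pi)⁻¹ * T ≤ 1 / 4 * T := mul_le_mul_of_nonneg_right hinv4 hT0
  intro x
  have h6 := hb x
  have h7 : b ≤ T := by
    rw [← hsplit] at hle
    linarith
  exact h6.trans h7

end Vale.Agent.P097.H407
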