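import Vale.Agent.P097.FD.Main

/-! # P097 / H407 : the strip estimate under the hypothesis that the maximal perimeter of
inscribed polygons is constant -/

set_option linter.all false

namespace Vale.Agent.P097.H407

open Vale.Agent.P097 Vale.Agent.P097.Reg Vale.Agent.P097.FD
open Complex Set
open scoped ComplexConjugate ContDiff Topology

/-- the maximal length of the `(n+1)`-gons is constant for all `n` with `π / (n + 1) < η` -/
def CstAll (h : ℝ → ℝ) (η : ℝ) : Prop := ∀ n : ℕ, Real.pi / ((n : ℝ) + 1) < η → Cst h n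

/-- the key estimate: exponential decay of the Fourier coefficients of the difference, with
uniform constants -/
theorem decay_r (M1 βT K M η : ℝ) (hM1 : 1 ≤ M1) (hβ : 0 < βT) (hK : 1 ≤ K) (hM : 1 ≤ M)
    (hη : 0 < η) : ∃ e0 Λ K3 : ℝ, 0 < e0 ∧ e0 ≤ 1 ∧ 0 < Λ ∧ 0 ≤ K3 ∧
      ∀ (P : ℝ) (T : CTab M1 βT P) (h₁ h₂ : ℝ → ℝ), ContDiff ℝ ∞ h₁ → ContDiff ℝ ∞ h₂ →
        (∀ x, h₁ (x + 2 * Real.pi) = h₁ x) → (∀ x, h₂ (x + 2 * Real.pi) = h₂ x) →
        (∀ x, 0 < rad h₁ x) → (∀ x, 0 < rad h₂ x) → CstAll h₁ η → CstAll h₂ η →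
        ∀ e : ℝ, 0 < e → e ≤ e0 → (∀ x, |h₁ x - h₂ x| ≤ e) →
          Close T h₁ (K * e ^ (7/8 : ℝ)) → Close T h₂ (K * e ^ (7/8 : ℝ)) →
          ∀ D : ℂ → ℂ, DifferentiableOn ℂ D T.D → (∀ z ∈ T.D, D (z + 2 * Real.pi) = D z) →
            (∀ z ∈ T.D, ‖D z‖ ≤ 2 * M) → (∀ x : ℝ, D x = ((h₁ x - h₂ x : ℝ) : ℂ)) →
            ∀ n : ℤ, ‖fc P (wdd T h₁ h₂) n‖ ≤ K3 * e * Real.exp (-(Λ * |(n : ℝ)|)) := by
  have hpi := Real.pi_pos
  have hpi7 : 2 * Real.pi ≤ 7 := by linarith [Real.pi_lt_d2]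
  obtain ⟨C1, hC1, leaf⟩ := leaf_diff M1 hM1
  have hM2 : 1 ≤ 7 * M1 + C1 := by linarith
  obtain ⟨C2, hC2, fr⟩ := fourier_relation (7 * M1 + C1) hM2
  have hM10 : 0 < M1 := by linarith only [hM1]
  have hC10 : 0 < C1 := by linarith only [hC1]
  have hC20 : 0 < C2 := by linarith only [hC2]
  have hK0 : 0 < K := by linarith only [hK]
  have hM0 : 0 < M := by linarith only [hM]
  -- constants
  obtain ⟨s, hs⟩ : ∃ s, s = βT / 4 := ⟨_, rfl⟩
  obtain ⟨Λ, hΛ⟩ : ∃ Λ, Λ = βT / (8 * M1) := ⟨_, rfl⟩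
  obtain ⟨a, ha⟩ : ∃ a, a = βT / M1 := ⟨_, rfl⟩
  have hs0 : 0 < s := by rw [hs]; positivity
  have hΛ0 : 0 < Λ := by rw [hΛ]; positivity
  have ha0 : 0 < a := by rw [ha]; positivity
  have haΛ : a = 8 * Λ := by rw [ha, hΛ]; field_simp
  obtain ⟨q1, hq1⟩ := exists_nat_ge (7 * M1 * (C1 / s + 1 + 2 * C2 / Λ) + Real.pi / η)
  obtain ⟨X0, hX0⟩ : ∃ X0, X0 = 2 * M * (21 : ℕ).factorial / a ^ 21 := ⟨_, rfl⟩
  have hX00 : 0 < X0 := by rw [hX0]; positivity
  obtain ⟨A, hA⟩ : ∃ A, A = C2 * (1 + C1 * K ^ 2) := ⟨_, rfl⟩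
  have hA0 : 0 ≤ A := by rw [hA]; positivity
  obtain ⟨e0, he00, he01, he0X, he0s⟩ : ∃ e0 : ℝ, 0 < e0 ∧ e0 ≤ 1 ∧
      (∀ e : ℝ, 0 < e → e ≤ e0 → X0 ≤ e ^ (-(1/16) : ℝ)) ∧
      (∀ e : ℝ, 0 < e → e ≤ e0 → C1 * K * e ^ (5/8 : ℝ) ≤ s) := by
    refine ⟨min 1 (min ((1 / X0) ^ (16 : ℝ)) ((s / (C1 * K)) ^ (8/5 : ℝ))), by positivity,
      min_le_left _ _, ?_, ?_⟩
    · intro e he hee
      have h1 : e ≤ (1 / X0) ^ (16 : ℝ) := hee.trans ((min_le_right _ _).trans (min_le_left _ _))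
      have h2 : ((1 / X0) ^ (16 : ℝ)) ^ (-(1/16) : ℝ) ≤ e ^ (-(1/16) : ℝ) :=
        Real.rpow_le_rpow_of_nonpos he h1 (by norm_num)
      refine le_trans (le_of_eq ?_) h2
      rw [← Real.rpow_mul (by positivity)]
      norm_num
      rw [Real.rpow_neg_one, inv_inv]
    · intro e he hee
      have h1 : e ≤ (s / (C1 * K)) ^ (8/5 : ℝ) := hee.trans ((min_le_right _ _).trans (min_le_right _ _))
      have h2 : e ^ (5/8 : ℝ) ≤ ((s / (C1 * K)) ^ (8/5 : ℝ)) ^ (5/8 : ℝ) :=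
        Real.rpow_le_rpow he.le h1 (by norm_num)
      rw [← Real.rpow_mul (by positivity)] at h2
      norm_num at h2
      rw [le_div_iff₀ (by positivity)] at h2
      linarith only [h2]
  refine ⟨e0, Λ, M1 * ((2 * A + 1) * Real.exp (Λ * q1) + 2 * M), he00, he01, hΛ0, by positivity, ?_⟩
  intro P T h₁ h₂ s1 s2 p1 p2 r1 r2 col1 col2 e he hee hd cl1 cl2 D hD hDp hDB hDr
  have hP := T.P0
  obtain ⟨hP1, hP2⟩ := period_bounds T
  have hP7 : P ≤ 7 * M1 := hP2.trans (mul_le_mul_of_nonneg_right hpi7 hM10.le)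
  have hPa : 1 / M1 ≤ 2 * Real.pi / P := by
    rw [div_le_div_iff₀ hM10 hP]
    linarith only [hP2]
  have he1 : e ≤ 1 := hee.trans he01
  have hβ1 := T.β1
  -- the normalised function
  obtain ⟨b, hb⟩ : ∃ b, b = M1 * e := ⟨_, rfl⟩
  have hb0 : 0 < b := by rw [hb]; positivity
  obtain ⟨F, hF⟩ : ∃ F : ℝ → ℂ, F = fun x => ((b⁻¹ : ℝ) : ℂ) * wdd T h₁ h₂ x := ⟨_, rfl⟩
  have hFc : ∀ n, fc P F n = ((b⁻¹ : ℝ) : ℂ) * fc P (wdd T h₁ h₂) n := by
    intro n; rw [hF]; exact fc_mul _ _ n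
  have hFn : ∀ n, ‖fc P F n‖ = b⁻¹ * ‖fc P (wdd T h₁ h₂) n‖ := by
    intro n
    rw [hFc, norm_mul, norm_real, Real.norm_of_nonneg (by positivity)]
  have hFcont : Continuous F := by
    rw [hF]; exact continuous_const.mul (wdd_cont T s1.continuous s2.continuous)
  have hFper : ∀ x, F (x + P) = F x := by
    intro x; rw [hF]; simp only; rw [wdd_per T p1 p2]
  have hFconj : ∀ x, conj (F x) = F x := by
    intro x; rw [hF]; simp only; rw [map_mul, conj_ofReal, wdd_conj]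
  have hF1 : ∀ x, ‖F x‖ ≤ 1 := by
    intro x
    rw [hF]; simp only
    rw [norm_mul, norm_real, Real.norm_of_nonneg (by positivity)]
    have := wdd_bound T hd x
    rw [← hb] at this
    rw [inv_mul_le_iff₀ hb0, mul_one]
    exact this
  -- a priori decay
  have hap : ∀ n : ℤ, ‖fc P F n‖ ≤ 2 * M / e * Real.exp (-(a * |(n : ℝ)|)) := by
    intro n
    rw [hFn]
    have h1 := wdd_fc T hD hDp hDB hDr n
    have h2 : Real.exp (-(2 * Real.pi * |(n : ℝ)| * βT / P)) ≤ Real.exp (-(a * |(n : ℝ)|)) := by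
      apply Real.exp_le_exp.2
      have h3 : 1 / M1 * (|(n : ℝ)| * βT) ≤ 2 * Real.pi / P * (|(n : ℝ)| * βT) :=
        mul_le_mul_of_nonneg_right hPa (by positivity)
      have h4 : 2 * Real.pi * |(n : ℝ)| * βT / P = 2 * Real.pi / P * (|(n : ℝ)| * βT) := by ring
      have h5 : a * |(n : ℝ)| = 1 / M1 * (|(n : ℝ)| * βT) := by rw [ha]; ring
      rw [h4, h5]
      linarith only [h3]
    calc b⁻¹ * ‖fc P (wdd T h₁ h₂) n‖ ≤ b⁻¹ * (2 * M * M1 * Real.exp (-(a * |(n : ℝ)|))) :=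
          mul_le_mul_of_nonneg_left (h1.trans (mul_le_mul_of_nonneg_left h2 (by positivity)))
            (by positivity)
      _ = 2 * M / e * Real.exp (-(a * |(n : ℝ)|)) := by
          rw [hb]; field_simp
  have hsum : Summable fun n : ℤ => ‖fc P F n‖ :=
    Summable.of_nonneg_of_le (fun n => norm_nonneg _) hap ((summable_exp_abs ha0).mul_left _)
  -- truncation level
  obtain ⟨Tc, hTc⟩ : ∃ Tc : ℝ, Tc = e ^ (-(1/4) : ℝ) := ⟨_, rfl⟩
  have hTc1 : 1 ≤ Tc := by
    rw [hTc]; exact Real.one_le_rpow_of_pos_of_le_one_of_nonpos he he1 (by norm_num)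
  obtain ⟨Xe, hXe⟩ : ∃ Xe : ℝ, Xe = e ^ (-(1/16) : ℝ) := ⟨_, rfl⟩
  have hXe0 : 0 < Xe := by rw [hXe]; positivity
  have hXe4 : Xe ^ 4 = Tc := by
    rw [hXe, hTc, ← Real.rpow_natCast, ← Real.rpow_mul he.le]; norm_num
  have hXe16 : Xe ^ 16 = 1 / e := by
    rw [hXe, ← Real.rpow_natCast, ← Real.rpow_mul he.le]; norm_num
    rw [Real.rpow_neg_one]
  have hweight : ∀ n : ℤ, ‖fc P F n‖ * Wg Λ Tc q1 n ≤ 2 * A + 1 := by
    refine weighted_bound (q2 := ⌊Xe⌋₊) hΛ0.le hTc1 hA0 (fun n => r12_fc_neg hP hFconj n)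
      (fun n _ => r12_fc_bound hP hF1 n) ?_ ?_
    · -- high frequencies
      intro n hn
      have h1 : Xe < |(n : ℝ)| := by
        have h2 := Nat.lt_floor_add_one Xe
        have h3 : ((⌊Xe⌋₊ : ℤ) + 1 : ℤ) ≤ |n| := by omega
        have h4 : ((⌊Xe⌋₊ : ℝ) + 1) ≤ |(n : ℝ)| := by exact_mod_cast h3
        linarith only [h2, h4]
      have h2 : Real.exp (-(a * |(n : ℝ)|)) ≤ Real.exp (-(a * Xe)) := by
        apply Real.exp_le_exp.2
        have := mul_le_mul_of_nonneg_left h1.le ha0.le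
        linarith only [this]
      have h3 : 2 * M * Xe ^ 20 * Real.exp (-(a * Xe)) ≤ 1 := by
        refine pow_exp_le (by positivity) ha0 ?_ hXe0.le
        rw [← hX0, hXe]
        exact he0X e he hee
      calc ‖fc P F n‖ * Tc ≤ (2 * M / e * Real.exp (-(a * Xe))) * Tc := by
            refine mul_le_mul_of_nonneg_right ((hap n).trans ?_) (by linarith only [hTc1])
            exact mul_le_mul_of_nonneg_left h2 (by positivity)
        _ = 2 * M * (Xe ^ 16 * Xe ^ 4) * Real.exp (-(a * Xe)) := by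
            rw [hXe16, hXe4]; ring
        _ = 2 * M * Xe ^ 20 * Real.exp (-(a * Xe)) := by ring
        _ ≤ 1 := h3
    · -- middle frequencies
      intro q hq hq2 S hS
      have hqX : (q : ℝ) ≤ Xe := (Nat.le_floor_iff hXe0.le).mp hq2
      have hq1' : 1 ≤ q := by omega
      have hq1r : (1 : ℝ) ≤ q := by exact_mod_cast hq1'
      have hq0r : (0 : ℝ) < q := by linarith only [hq1r]
      have hqb : 7 * M1 * (C1 / s + 1 + 2 * C2 / Λ) + Real.pi / η < q := by
        have : (q1 : ℝ) < q := by exact_mod_cast hq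
        linarith only [hq1, this]
      have t1 : 0 ≤ 7 * M1 * (C1 / s) := by positivity
      have t2 : 0 ≤ 7 * M1 * (2 * C2 / Λ) := by positivity
      have t3 : 0 ≤ Real.pi / η := by positivity
      have g1 : 7 * M1 * (C1 / s) ≤ q := by linarith only [hqb, t1, t2, t3, hM10]
      have g2 : 7 * M1 ≤ q := by linarith only [hqb, t1, t2, t3, hM10]
      have g3 : 7 * M1 * (2 * C2 / Λ) ≤ q := by linarith only [hqb, t1, t2, t3, hM10]
      have g4 : Real.pi / η < q := by linarith only [hqb, t1, t2, t3, hM10]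
      have om1 : C1 * (P / q) ≤ s := by
        rw [← mul_div_assoc, div_le_iff₀ hq0r]
        have := mul_le_mul_of_nonneg_left g1 hs0.le
        have e2 : s * (7 * M1 * (C1 / s)) = 7 * M1 * C1 := by field_simp
        rw [e2] at this
        have h5 := mul_le_mul_of_nonneg_left hP7 hC10.le
        linarith only [this, h5]
      have om2 : P / q ≤ 1 := by
        rw [div_le_one hq0r]; linarith only [g2, hP7]
      have om3 : 2 * (C2 * (P / q)) ≤ Λ := by
        have h6 := mul_le_mul_of_nonneg_left g3 hΛ0.le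
        have e2 : Λ * (7 * M1 * (2 * C2 / Λ)) = 2 * C2 * (7 * M1) := by field_simp
        rw [e2] at h6
        have h5 := mul_le_mul_of_nonneg_left hP7 (by positivity : 0 ≤ 2 * C2)
        have e3 : 2 * (C2 * (P / q)) = 2 * C2 * P / q := by ring
        rw [e3, div_le_iff₀ hq0r]
        linarith only [h6, h5]
      have hsb : s < βT := by rw [hs]; linarith only [hβ]
      obtain ⟨Ef, κ, B1, B2, B3, B4, B5, B6⟩ := leaf M1 βT P T le_rfl s (q - 1) q (by omega) hs0 hsb om1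
      have hcond : C1 * (q : ℝ) ^ 4 * (K * e ^ (7/8 : ℝ)) ≤ s := by
        have h1 : (q : ℝ) ^ 4 ≤ e ^ (-(1/4) : ℝ) := by
          rw [← hTc, ← hXe4]; exact pow_le_pow_left₀ hq0r.le hqX 4
        calc C1 * (q : ℝ) ^ 4 * (K * e ^ (7/8 : ℝ))
            ≤ C1 * e ^ (-(1/4) : ℝ) * (K * e ^ (7/8 : ℝ)) := by
              refine mul_le_mul_of_nonneg_right ?_ (by positivity)
              exact mul_le_mul_of_nonneg_left h1 hC10.le
          _ = C1 * K * (e ^ (-(1/4) : ℝ) * e ^ (7/8 : ℝ)) := by ring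
          _ = C1 * K * e ^ (5/8 : ℝ) := by
              rw [← Real.rpow_add he]; norm_num
          _ ≤ s := he0s e he hee
      have hcst : ∀ {h : ℝ → ℝ}, ContDiff ℝ ∞ h → (∀ x, h (x + 2 * Real.pi) = h x) →
          (∀ x, 0 < rad h x) → CstAll h η → Cst h (q - 1) := by
        intro h c1 c2 c3 c4 θ
        refine c4 (q - 1) ?_ θ
        have e1 : ((q - 1 : ℕ) : ℝ) + 1 = q := by
          have : (q - 1 : ℕ) + 1 = q := by omega
          exact_mod_cast this
        rw [e1, div_lt_iff₀ hq0r]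
        rw [div_lt_iff₀ hη] at g4
        linarith only [g4]
      obtain ⟨c0, hc0⟩ := B6 h₁ h₂ s1 s2 p1 p2 r1 r2 _ cl1 cl2 hcond (hcst s1 p1 r1 col1)
        (hcst s2 p2 r2 col2)
      have hS0 : 0 ≤ S :=
        (mul_nonneg (norm_nonneg _) (Wg_slow hΛ0.le hTc1 q1 0 0).1.le).trans (hS 0)
      have hη0 : 0 ≤ C1 * K ^ 2 * e ^ (1/4 : ℝ) := by positivity
      have hfr := fr P (βT - s) Λ Λ S (C1 * K ^ 2 * e ^ (1/4 : ℝ)) (b⁻¹ * c0) q Ef κ (fun _ => 0) F
        (Wg Λ Tc q1) ?_ ?_ (by linarith only [hsb]) (by linarith only [hs0, hβ1]) hq1' om2 hΛ0.le hΛ0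
        ?_ ?_ hS0 hη0 B1 B2 B3 ?_ B5 (differentiableOn_const _) (fun _ _ => rfl) ?_ hFcont hFper hsum
        (fun n => (Wg_slow hΛ0.le hTc1 q1 0 n).1) (fun n => by
          have := (Wg_slow hΛ0.le hTc1 q1 (q : ℤ) n).2
          simpa only [ge_iff_le, Int.cast_natCast] using this) hS ?_
      · refine hfr.trans ?_
        have W1 : C2 * (P / q / Λ) * S ≤ S / 2 := by
          have : C2 * (P / q / Λ) ≤ 1 / 2 := by
            rw [← mul_div_assoc, div_le_iff₀ hΛ0]
            linarith only [om3]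
          calc _ ≤ 1 / 2 * S := mul_le_mul_of_nonneg_right this hS0
            _ = S / 2 := by ring
        have hW0 : 0 ≤ Wg Λ Tc q1 (q : ℤ) := (Wg_slow hΛ0.le hTc1 q1 0 q).1.le
        have W2 : Wg Λ Tc q1 (q : ℤ) * Real.exp (-(2 * Real.pi * q * (βT - s) / P)) ≤ 1 := by
          have h1 : Wg Λ Tc q1 (q : ℤ) ≤ Real.exp (Λ * q) := by
            unfold Wg
            refine (min_le_left _ _).trans (Real.exp_le_exp.mpr ?_)
            refine mul_le_mul_of_nonneg_left ?_ hΛ0.le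
            apply max_le
            · rw [Int.cast_natCast, abs_of_nonneg hq0r.le]
              have : (0 : ℝ) ≤ q1 := Nat.cast_nonneg _
              linarith only [this]
            · exact hq0r.le
          have h2 : Λ * q ≤ 2 * Real.pi * q * (βT - s) / P := by
            have e4 : 2 * Real.pi * q * (βT - s) / P = 2 * Real.pi / P * (q * (βT - s)) := by ring
            have h5 : 1 / M1 * (q * (βT - s)) ≤ 2 * Real.pi / P * (q * (βT - s)) :=
              mul_le_mul_of_nonneg_right hPa (mul_nonneg hq0r.le (by linarith only [hsb]))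
            have e5 : Λ * q = 1 / M1 * (q * (βT / 8)) := by rw [hΛ]; field_simp
            have h6 : 1 / M1 * (q * (βT / 8)) ≤ 1 / M1 * (q * (βT - s)) := by
              refine mul_le_mul_of_nonneg_left (mul_le_mul_of_nonneg_left ?_ hq0r.le) (by positivity)
              rw [hs]; linarith only [hβ]
            rw [e4, e5]
            linarith only [h5, h6]
          calc _ ≤ Real.exp (Λ * q) * Real.exp (-(2 * Real.pi * q * (βT - s) / P)) :=
                mul_le_mul_of_nonneg_right h1 (Real.exp_pos _).le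
            _ ≤ 1 := by
                rw [← Real.exp_add, Real.exp_le_one_iff]
                linarith only [h2]
        have W3 : Wg Λ Tc q1 (q : ℤ) * (C1 * K ^ 2 * e ^ (1/4 : ℝ)) ≤ C1 * K ^ 2 := by
          have h1 : Wg Λ Tc q1 (q : ℤ) ≤ Tc := min_le_right _ _
          calc _ ≤ Tc * (C1 * K ^ 2 * e ^ (1/4 : ℝ)) := mul_le_mul_of_nonneg_right h1 hη0
            _ = C1 * K ^ 2 * (e ^ (-(1/4) : ℝ) * e ^ (1/4 : ℝ)) := by rw [hTc]; ring
            _ = C1 * K ^ 2 := by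
                rw [← Real.rpow_add he]; norm_num
        have e6 : C2 * Wg Λ Tc q1 (q : ℤ) *
            (Real.exp (-(2 * Real.pi * q * (βT - s) / P)) + C1 * K ^ 2 * e ^ (1/4 : ℝ)) =
            C2 * (Wg Λ Tc q1 (q : ℤ) * Real.exp (-(2 * Real.pi * q * (βT - s) / P)) +
              Wg Λ Tc q1 (q : ℤ) * (C1 * K ^ 2 * e ^ (1/4 : ℝ))) := by ring
        rw [e6]
        have W4 := mul_le_mul_of_nonneg_left (add_le_add W2 W3) hC20.le
        rw [hA]
        linarith only [W1, W4]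
      · have h1 : 0 ≤ C1 * P := by positivity
        have h2 : 0 ≤ M1 * P := by positivity
        have h3 : 1 ≤ M1 * P := by
          have := Real.pi_gt_three
          linarith only [hP1, this]
        linarith only [h1, h2, h3]
      · linarith only [hP7, hC10]
      · have e4 : 2 * Real.pi * (βT - s) / P = 2 * Real.pi / P * (βT - s) := by ring
        have h5 : 1 / M1 * (βT - s) ≤ 2 * Real.pi / P * (βT - s) :=
          mul_le_mul_of_nonneg_right hPa (by linarith only [hsb])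
        have e5 : Λ + Λ = 1 / M1 * (βT / 4) := by rw [hΛ]; field_simp; ring
        have h6 : 1 / M1 * (βT / 4) ≤ 1 / M1 * (βT - s) := by
          refine mul_le_mul_of_nonneg_left ?_ (by positivity)
          rw [hs]; linarith only [hβ]
        rw [e4, e5]
        linarith only [h5, h6]
      · have : 0 ≤ C2 * (P / q) := by positivity
        linarith only [om3, this]
      · intro j hj ζ hζ
        obtain ⟨b1, b2⟩ := B4 j hj ζ hζ
        have h2 : C1 * (P / q) ^ 2 ≤ (7 * M1 + C1) * (P / q) ^ 2 :=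
          mul_le_mul_of_nonneg_right (by linarith only [hM10]) (sq_nonneg _)
        exact ⟨b1.trans h2, b2.trans h2⟩
      · intro ζ _
        rw [norm_zero]; positivity
      · intro x
        have h1 := hc0 x
        have e7 : ((b⁻¹ * c0 : ℝ) : ℂ) - 0 - (P / q : ℝ) * ∑ j ∈ Finset.range q,
            κ j x * F (x + (j + 1 / 2) * (P / q) + (Ef j x).re) =
            ((b⁻¹ : ℝ) : ℂ) * ((c0 : ℂ) - (P / q : ℝ) * ∑ j ∈ Finset.range q,
            κ j x * (wd T h₁ (x + (j + 1 / 2) * (P / q) + (Ef j x).re)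
              - wd T h₂ (x + (j + 1 / 2) * (P / q) + (Ef j x).re))) := by
          rw [hF]
          simp only [wdd]
          rw [mul_sub, sub_zero, ofReal_mul]
          congr 1
          rw [Finset.mul_sum, Finset.mul_sum, Finset.mul_sum]
          refine Finset.sum_congr rfl fun j _ => ?_
          ring
        rw [e7, norm_mul, norm_real, Real.norm_of_nonneg (by positivity)]
        have h8 : (q : ℝ) ^ 8 ≤ e ^ (-(1/2) : ℝ) := by
          calc (q : ℝ) ^ 8 ≤ Xe ^ 8 := pow_le_pow_left₀ hq0r.le hqX 8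
            _ = e ^ (-(1/2) : ℝ) := by
                rw [hXe, ← Real.rpow_natCast, ← Real.rpow_mul he.le]; norm_num
        have h9 : (e ^ (7/8 : ℝ)) ^ 2 = e ^ (7/4 : ℝ) := by
          rw [← Real.rpow_natCast, ← Real.rpow_mul he.le]; norm_num
        have h10 : e ^ (-(1/2) : ℝ) * e ^ (7/4 : ℝ) = e * e ^ (1/4 : ℝ) := by
          nth_rewrite 3 [← Real.rpow_one e]
          rw [← Real.rpow_add he, ← Real.rpow_add he]; norm_num
        calc b⁻¹ * ‖_‖ ≤ b⁻¹ * (C1 * (q : ℝ) ^ 8 * (K * e ^ (7/8 : ℝ)) ^ 2) :=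
              mul_le_mul_of_nonneg_left h1 (by positivity)
          _ = b⁻¹ * (C1 * K ^ 2 * ((q : ℝ) ^ 8 * e ^ (7/4 : ℝ))) := by
              rw [← h9]; ring
          _ ≤ b⁻¹ * (C1 * K ^ 2 * (e ^ (-(1/2) : ℝ) * e ^ (7/4 : ℝ))) := by
              refine mul_le_mul_of_nonneg_left ?_ (by positivity)
              refine mul_le_mul_of_nonneg_left ?_ (by positivity)
              exact mul_le_mul_of_nonneg_right h8 (by positivity)
          _ = 1 / M1 * (C1 * K ^ 2 * e ^ (1/4 : ℝ)) := by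
              rw [h10, hb]; field_simp
          _ ≤ 1 * (C1 * K ^ 2 * e ^ (1/4 : ℝ)) := by
              refine mul_le_mul_of_nonneg_right ?_ hη0
              rw [div_le_one hM10]; exact hM1
          _ = _ := one_mul _
  -- conclusion
  intro n
  have hn0 : 0 ≤ |(n : ℝ)| := abs_nonneg _
  have hE1 : 1 ≤ Real.exp (Λ * q1) := Real.one_le_exp (by positivity)
  have hfin : ‖fc P F n‖ ≤ ((2 * A + 1) * Real.exp (Λ * q1) + 2 * M) * Real.exp (-(Λ * |(n : ℝ)|)) := by
    have hx0 : 0 < Real.exp (-(Λ * |(n : ℝ)|)) := Real.exp_pos _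
    rcases le_total (Real.exp (Λ * max (|(n : ℝ)| - q1) 0)) Tc with hc | hc
    · have h1 := hweight n
      unfold Wg at h1
      rw [min_eq_left hc] at h1
      have h2 : Real.exp (Λ * (|(n : ℝ)| - q1)) ≤ Real.exp (Λ * max (|(n : ℝ)| - q1) 0) :=
        Real.exp_le_exp.2 (mul_le_mul_of_nonneg_left (le_max_left _ _) hΛ0.le)
      have h3 : ‖fc P F n‖ * Real.exp (Λ * (|(n : ℝ)| - q1)) ≤ 2 * A + 1 :=
        (mul_le_mul_of_nonneg_left h2 (norm_nonneg _)).trans h1
      have h4 : ‖fc P F n‖ ≤ (2 * A + 1) * Real.exp (Λ * q1) * Real.exp (-(Λ * |(n : ℝ)|)) := by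
        have e1 : Real.exp (Λ * q1) * Real.exp (-(Λ * |(n : ℝ)|)) =
            (Real.exp (Λ * (|(n : ℝ)| - q1)))⁻¹ := by
          rw [← Real.exp_add, ← Real.exp_neg]; congr 1; ring
        rw [mul_assoc, e1, ← div_eq_mul_inv, le_div_iff₀ (Real.exp_pos _)]
        exact h3
      have h5 : 0 ≤ 2 * M * Real.exp (-(Λ * |(n : ℝ)|)) := by positivity
      linarith only [h4, h5]
    · have h1 : 1 / e ≤ Real.exp (4 * Λ * |(n : ℝ)|) := by
        have h2 : Real.exp (Λ * max (|(n : ℝ)| - q1) 0) ≤ Real.exp (Λ * |(n : ℝ)|) := by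
          refine Real.exp_le_exp.2 (mul_le_mul_of_nonneg_left ?_ hΛ0.le)
          have : (0 : ℝ) ≤ q1 := Nat.cast_nonneg _
          exact max_le (by linarith only [this]) hn0
        have h3 : Xe ^ 4 ≤ Real.exp (Λ * |(n : ℝ)|) := by rw [hXe4]; exact hc.trans h2
        calc 1 / e = (Xe ^ 4) ^ 4 := by rw [← hXe16]; ring
          _ ≤ (Real.exp (Λ * |(n : ℝ)|)) ^ 4 := pow_le_pow_left₀ (by positivity) h3 4
          _ = Real.exp (4 * Λ * |(n : ℝ)|) := by
              rw [← Real.exp_nat_mul]; congr 1; push_cast; ring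
      have h2 : ‖fc P F n‖ ≤ 2 * M * Real.exp (-(Λ * |(n : ℝ)|)) := by
        calc ‖fc P F n‖ ≤ 2 * M / e * Real.exp (-(a * |(n : ℝ)|)) := hap n
          _ = 2 * M * ((1 / e) * Real.exp (-(a * |(n : ℝ)|))) := by ring
          _ ≤ 2 * M * (Real.exp (4 * Λ * |(n : ℝ)|) * Real.exp (-(a * |(n : ℝ)|))) := by
              refine mul_le_mul_of_nonneg_left ?_ (by positivity)
              exact mul_le_mul_of_nonneg_right h1 (Real.exp_pos _).le
          _ = 2 * M * Real.exp (-(4 * Λ * |(n : ℝ)|)) := by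
              rw [← Real.exp_add, haΛ]; congr 2; ring
          _ ≤ 2 * M * Real.exp (-(Λ * |(n : ℝ)|)) := by
              refine mul_le_mul_of_nonneg_left (Real.exp_le_exp.2 ?_) (by positivity)
              have : 0 ≤ Λ * |(n : ℝ)| := by positivity
              linarith only [this]
      have h5 : 0 ≤ (2 * A + 1) * Real.exp (Λ * q1) * Real.exp (-(Λ * |(n : ℝ)|)) := by positivity
      linarith only [h2, h5]
  rw [hFn, inv_mul_le_iff₀ hb0] at hfin
  refine hfin.trans (le_of_eq ?_)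
  rw [hb]; ring


/-- [F] strip estimate for resonant tables -/
theorem stF_r (η β M : ℝ) (hη : 0 < η) (hβ : 0 < β) (hM : 1 ≤ M) : ∃ β' C : ℝ, 0 < β' ∧ 0 ≤ C ∧
  ∀ h₁ h₂ : ℝ → ℝ, StripTab β M h₁ → StripTab β M h₂ → CstAll h₁ η → CstAll h₂ η →
    ∀ b : ℝ, (∀ x, |h₁ x - h₂ x| ≤ b) →
      ∃ G : ℂ → ℂ, DifferentiableOn ℂ G {z : ℂ | |z.im| < β'} ∧
        (∀ z : ℂ, |z.im| < β' → ‖G z‖ ≤ C * b) ∧ ∀ x : ℝ, G x = h₁ x - h₂ x := by
  obtain ⟨M1, βT, K, e1, hM1, hβT, hK, he1, he11, tab⟩ := table β M hβ hM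
  obtain ⟨e0, Λ, K3, he0, he01, hΛ, hK3, dec⟩ := decay_r M1 βT K M η hM1 hβT hK hM hη
  have hM10 : 0 < M1 := by linarith only [hM1]
  have hM0 : 0 < M := by linarith only [hM]
  obtain ⟨r, hr⟩ : ∃ r, r = min (βT / M1) (Λ / 2 / M1 ^ 2) := ⟨_, rfl⟩
  have hr0 : 0 < r := by rw [hr]; positivity
  have hr1 : M1 * r ≤ βT := by
    have : r ≤ βT / M1 := by rw [hr]; exact min_le_left _ _
    rw [le_div_iff₀ hM10] at this
    linarith only [this]
  have hr2 : M1 ^ 2 * r ≤ Λ / 2 := by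
    have : r ≤ Λ / 2 / M1 ^ 2 := by rw [hr]; exact min_le_right _ _
    rw [le_div_iff₀ (by positivity)] at this
    linarith only [this]
  obtain ⟨Z, hZ⟩ : ∃ Z, Z = ∑' n : ℤ, Real.exp (-(Λ / 2 * |(n : ℝ)|)) := ⟨_, rfl⟩
  have hZ0 : 0 ≤ Z := by rw [hZ]; exact tsum_nonneg fun n => (Real.exp_pos _).le
  obtain ⟨em, hem⟩ : ∃ em, em = min e0 e1 := ⟨_, rfl⟩
  have hem0 : 0 < em := by rw [hem]; positivity
  have hC0 : 0 ≤ M1 * (K3 * Z) + 2 * M / em := by positivity
  refine ⟨min r β, M1 * (K3 * Z) + 2 * M / em, by positivity, hC0, ?_⟩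
  intro h₁ h₂ S1 S2 col1 col2 b hb
  have hb0 : 0 ≤ b := (abs_nonneg _).trans (hb 0)
  have s1 := S1.contDiff hβ
  have s2 := S2.contDiff hβ
  rcases hb0.eq_or_lt with hbz | hbp
  · -- the two tables are equal
    refine ⟨fun _ => 0, differentiableOn_const _, fun z _ => ?_, fun x => ?_⟩
    · rw [norm_zero]; positivity
    · have h1 := hb x
      rw [← hbz] at h1
      have h2 : h₁ x - h₂ x = 0 := abs_nonpos_iff.1 h1
      rw [← ofReal_sub, h2, ofReal_zero]
  have q1 := S1.rad_pos hM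
  have q2 := S2.rad_pos hM
  obtain ⟨p1, r1, H₁, d1, b1, x1⟩ := id S1
  obtain ⟨p2, r2, H₂, d2, b2, x2⟩ := id S2
  by_cases hbe : b ≤ em
  · -- small difference
    have hbe0 : b ≤ e0 := hbe.trans (by rw [hem]; exact min_le_left _ _)
    have hbe1 : b ≤ e1 := hbe.trans (by rw [hem]; exact min_le_right _ _)
    obtain ⟨P, T, hTD, cl1, cl2⟩ := tab h₁ h₂ S1 S2 b hbp hbe1 hb
    have hc := dec P T h₁ h₂ s1 s2 p1 p2 q1 q2 col1 col2 b hbp hbe0 hb cl1 cl2
      (fun z => H₁ z - H₂ z) ?_ ?_ ?_ ?_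
    · obtain ⟨G, g1, g2, g3⟩ := recon T s1.continuous s2.continuous p1 p2 hΛ
        (by positivity : 0 ≤ K3 * b) hr0 hr1 hr2 hc
      refine ⟨G, g1.mono (U6.strip_mono (min_le_left _ _)), fun z hz => ?_, g3⟩
      have h1 := g2 z (lt_of_lt_of_le hz (min_le_left _ _))
      rw [← hZ] at h1
      have h2 : 0 ≤ 2 * M / em * b := by positivity
      have h3 : M1 * (K3 * b * Z) = M1 * (K3 * Z) * b := by ring
      rw [add_mul]
      linarith only [h1, h2, h3]
    · exact DifferentiableOn.sub (DifferentiableOn.mono d1 hTD) (DifferentiableOn.mono d2 hTD)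
    · intro z hz
      have hz' := hTD z hz
      have a1 := ext_per hβ d1 x1 p1 z hz'
      have a2 := ext_per hβ d2 x2 p2 z hz'
      have e3 : z + 2 * Real.pi = z + ((2 * Real.pi : ℝ) : ℂ) := by push_cast; rfl
      simp only [e3, a1, a2]
    · intro z hz
      have hz' := hTD z hz
      exact (norm_sub_le _ _).trans (by linarith only [b1 z hz', b2 z hz'])
    · intro x
      show H₁ x - H₂ x = _
      rw [x1, x2, ofReal_sub]
  · -- large difference
    push Not at hbe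
    refine ⟨fun z => H₁ z - H₂ z, ?_, fun z hz => ?_, fun x => ?_⟩
    · have hsub : strip (min r β) ⊆ strip β := U6.strip_mono (min_le_right _ _)
      exact DifferentiableOn.sub (DifferentiableOn.mono d1 hsub) (DifferentiableOn.mono d2 hsub)
    · have hz' : |z.im| < β := lt_of_lt_of_le hz (min_le_right _ _)
      have h1 : ‖H₁ z - H₂ z‖ ≤ 2 * M :=
        (norm_sub_le _ _).trans (by linarith only [b1 z hz', b2 z hz'])
      have h2 : 2 * M ≤ 2 * M / em * b := by
        rw [div_mul_eq_mul_div, le_div_iff₀ hem0]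
        exact mul_le_mul_of_nonneg_left hbe.le (by positivity)
      have h3 : 0 ≤ M1 * (K3 * Z) * b := by positivity
      rw [add_mul]
      linarith only [h1, h2, h3]
    · show H₁ x - H₂ x = _
      rw [x1, x2]


end Vale.Agent.P097.H407
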