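import Vale.Agent.P097.H407.Rat2
import Vale.Agent.P097.H407.Closed

/-! # P097 / H407 : final forms of the local theorem, of the theorem on connected families and of
the theorem on real-analytic families, for tables with a collar or with all the rational
invariant curves of small rotation number -/

set_option linter.all false

namespace Vale.Agent.P097.H407

open Vale.Agent.P097 Vale.Agent.P097.FD Vale.Agent.P097.TOP
open Filter
open scoped ContDiff Topology

/-- integrability near the boundary, of size `η`: either a collar of invariant graphs of width `η`,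
or invariant graphs of periodic orbits for all the rational rotation numbers less than `η` -/
def NInt (h : ℝ → ℝ) (η : ℝ) : Prop := Collar h η ∨ Leaves h η

theorem rsn_of_nint {h : ℝ → ℝ} {η : ℝ} (H : SmoothTable h) (h0 : 0 < η) (N : NInt h η) :
    Rsn h η := by
  rcases N with C | R
  · exact rsn_of_collar H h0 C
  · refine rsn_of_leaves H h0 fun p n hp hn hc hlt => R p n hp hn hc (hlt.trans_le ?_)
    exact div_le_self h0.le (by linarith [Real.pi_gt_three])

section
open Vale.Agent.P097.H500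
open Vale.Agent.P097.Reg

/-- [R] with finitely many derivatives: the number of derivatives depends on the bounds. -/
theorem stR_fin_r (η c : ℝ) (A : ℕ → ℝ) (hη : 0 < η) (hc : 0 < c) : ∃ (k : ℕ) (β M : ℝ), 0 < β ∧
    1 ≤ M ∧ ∀ h : ℝ → ℝ, ContDiff ℝ ∞ h → (∀ x, h (x + 2 * Real.pi) = h x) →
      (∀ x, c ≤ h x + deriv (deriv h) x) → (∀ i ≤ k, ∀ x, |iteratedDeriv i h x| ≤ A i) →
      CstAll h η → FD.StripTab β M h := by
  obtain ⟨q0, hq0⟩ := exists_nat_gt (Real.pi / η)
  obtain ⟨C0, hC0, hap⟩ := exists_approx_fin A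
  choose CF hCF hap using hap
  obtain ⟨N0, β, M, hβ, hM, hcore⟩ := core_fin hC0 (by positivity : 0 < c / 2) CF hCF q0
  refine ⟨N0 + 7, β, max M (1 / c), hβ, hM.trans (le_max_left _ _), ?_⟩
  intro h hs hp hlow hA hcol
  have hpos : ∀ x, 0 < rad h x := fun x => hc.trans_le (hlow x)
  have hcst : ∀ n, q0 ≤ n → Cst h n := by
    intro n hn θ
    refine hcol n ?_ θ
    have hn' : (q0 : ℝ) ≤ n := by exact_mod_cast hn
    rw [div_lt_iff₀ hη] at hq0
    rw [div_lt_iff₀ (by positivity)]
    nlinarith only [hn', hq0, hη]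
  obtain ⟨H, h1, h2, h3⟩ := hcore h hs hp (fun x => by
    have := hlow x
    unfold rad
    linarith only [this]) hcst (fun N hN => hap N h hs hp (fun i hi x => by
      rw [← iteratedDeriv_eq_iterate]; exact hA i (by omega) x))
  refine ⟨hp, fun x => ?_, H, h1, fun z hz => (h2 z hz).trans (le_max_left _ _), h3⟩
  have e1 := hlow x
  have e2 : 1 / c ≤ max M (1 / c) := le_max_right _ _
  calc (1 : ℝ) = 1 / c * c := by field_simp
    _ ≤ max M (1 / c) * (h x + deriv (deriv h) x) :=
      mul_le_mul e2 e1 hc.le (by positivity)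

end

/-- the local theorem: every non-circular ellipse has a `C^k` neighbourhood in which all the
tables with a collar of width `η`, or with all the rational invariant curves of rotation number
less than `η`, are ellipses -/
theorem local_Ck_r (HL : StLIN) {v : Fin 5 → ℝ} (hv : v ∈ EP) (hn : v 3 ≠ 0 ∨ v 4 ≠ 0)
    {η : ℝ} (hη : 0 < η) : ∃ (k : ℕ) (κ : ℝ), 0 < κ ∧ ∀ h : ℝ → ℝ,
      SmoothTable h → NInt h η → CkClose k κ h (EF v) → ∃ w ∈ EP, h = EF w := by
  have hsm := smoothTable_EF hv
  have hA : ∀ i : ℕ, ∃ B : ℝ, ∀ x, |iteratedDeriv i (EF v) x| ≤ B := fun i =>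
    bdd_periodic (hsm.1.continuous_iteratedDeriv i (by exact_mod_cast le_top)) Real.two_pi_pos
      (iter_per hsm.2.1 i)
  choose B hB using hA
  have hrc : Continuous (fun x => EF v x + deriv (deriv (EF v)) x) := by
    have h2 : Continuous (deriv^[2] (EF v)) := (hsm.1.iterate_deriv 2).continuous
    exact hsm.1.continuous.add h2
  have hrp : ∀ x, (fun x => EF v x + deriv (deriv (EF v)) x) (x + 2 * Real.pi) =
      (fun x => EF v x + deriv (deriv (EF v)) x) x := by
    intro x
    have h2 := iter_per hsm.2.1 2 x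
    rw [iteratedDeriv_eq_iterate] at h2
    have h3 : deriv (deriv (EF v)) (x + 2 * Real.pi) = deriv (deriv (EF v)) x := h2
    simp only [hsm.2.1, h3]
  obtain ⟨c, hc, hcl⟩ := low_periodic hrc Real.two_pi_pos hrp hsm.2.2
  obtain ⟨k, β, M, hβ, hM, HR⟩ := stR_fin_r η (c / 2) (fun i => B i + 1) hη (by positivity)
  obtain ⟨κ, hκ, H⟩ := open_r HL hv hn hη hβ hM
  refine ⟨max k 2, min κ (min 1 (c / 4)), by positivity, fun h hs hcol hcl2 => ?_⟩
  have h1 : ∀ i ≤ max k 2, ∀ x, |iteratedDeriv i h x - iteratedDeriv i (EF v) x| < 1 := fun i hi x =>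
    lt_of_lt_of_le (hcl2 i hi x) ((min_le_right _ _).trans (min_le_left _ _))
  have h4 : ∀ i ≤ max k 2, ∀ x, |iteratedDeriv i h x - iteratedDeriv i (EF v) x| < c / 4 :=
    fun i hi x => lt_of_lt_of_le (hcl2 i hi x) ((min_le_right _ _).trans (min_le_right _ _))
  have h0 : ∀ x, |h x - EF v x| < κ := fun x => by
    have := lt_of_lt_of_le (hcl2 0 (Nat.zero_le _) x) (min_le_left _ _)
    simpa using this
  have hR := rsn_of_nint hs hη hcol
  refine H h (HR h hs.1 hs.2.1 (fun x => ?_) (fun i hi x => ?_) hR.cst) hR h0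
  · have a0 := h4 0 (Nat.zero_le _) x
    have a2 := h4 2 (le_max_right _ _) x
    rw [iteratedDeriv_zero, iteratedDeriv_zero] at a0
    have e2 : iteratedDeriv 2 h = deriv (deriv h) := by rw [iteratedDeriv_eq_iterate]; rfl
    have e2' : iteratedDeriv 2 (EF v) = deriv (deriv (EF v)) := by
      rw [iteratedDeriv_eq_iterate]; rfl
    rw [e2, e2'] at a2
    have := hcl x
    have b0 := (abs_lt.1 a0).1
    have b2 := (abs_lt.1 a2).1
    linarith
  · have a1 := h1 i (hi.trans (le_max_left _ _)) x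
    have a2 := hB i x
    have a3 : |iteratedDeriv i h x| ≤ |iteratedDeriv i h x - iteratedDeriv i (EF v) x| +
        |iteratedDeriv i (EF v) x| := by
      have := abs_add_le (iteratedDeriv i h x - iteratedDeriv i (EF v) x) (iteratedDeriv i (EF v) x)
      rwa [sub_add_cancel] at this
    linarith

/-- neighbourhoods of a non-circular ellipse in a `C^∞`-continuous family -/
theorem nhds_ell_r (HL : StLIN) {X : Type*} {l : Filter X} {H : X → ℝ → ℝ} {e : ℝ → ℝ}
    (he : ∃ w ∈ EP, e = EF w) (hnd : ¬ IsDisc e) {η : ℝ} (hη : 0 < η)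
    (hc : ∀ i : ℕ, TendstoUniformly (fun x => iteratedDeriv i (H x)) (iteratedDeriv i e) l) :
    ∀ᶠ x in l, SmoothTable (H x) → NInt (H x) η → ∃ w ∈ EP, H x = EF w := by
  obtain ⟨w, hw, rfl⟩ := he
  obtain ⟨k, κ, hκ, hk⟩ := local_Ck_r HL hw (nc_of_not_disc hnd) hη
  have h1 : ∀ᶠ x in l, ∀ i ∈ Finset.range (k + 1), ∀ s,
      |iteratedDeriv i (H x) s - iteratedDeriv i (EF w) s| < κ := by
    rw [Filter.eventually_all_finset]
    intro i _
    have h2 := Metric.tendstoUniformly_iff.1 (hc i) κ hκ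
    filter_upwards [h2] with x hx s
    have := hx s
    rwa [dist_comm, Real.dist_eq] at this
  filter_upwards [h1] with x hx hs hcol
  exact hk (H x) hs hcol fun i hi s => hx i (Finset.mem_range.2 (by omega)) s

/-- connected families of tables with a uniform collar which contain no disc -/
theorem connected_r (HL : StLIN) {X : Type*} [TopologicalSpace X] [PreconnectedSpace X]
    (H : X → ℝ → ℝ) {η : ℝ} (hη : 0 < η) (hT : ∀ x, SmoothTable (H x) ∧ NInt (H x) η)
    (hc : ∀ (i : ℕ) (x0 : X),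
      TendstoUniformly (fun x => iteratedDeriv i (H x)) (iteratedDeriv i (H x0)) (𝓝 x0))
    (hnd : ∀ x, ¬ IsDisc (H x)) (x0 : X) (he : ∃ w ∈ EP, H x0 = EF w) :
    ∀ x, ∃ w ∈ EP, H x = EF w := by
  have hcont : ∀ s, Continuous fun x => H x s := fun s => by
    rw [continuous_iff_continuousAt]
    intro x
    have := (hc 0 x).tendsto_at s
    simpa [ContinuousAt] using this
  have hcl : IsClosed {x | ∃ w ∈ EP, H x = EF w} := by
    have e : {x | ∃ w ∈ EP, H x = EF w} = ⋂ s : ℝ, {x | pS (H x) s ^ 2 - EQ (par (H x)) s = 0} := by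
      ext x
      simp only [Set.mem_setOf_eq, Set.mem_iInter]
      rw [ell_iff (hT x).1]
      exact forall_congr' fun s => sub_eq_zero.symm
    rw [e]
    exact isClosed_iInter fun s => isClosed_eq (continuous_idt hcont s) continuous_const
  have hop : IsOpen {x | ∃ w ∈ EP, H x = EF w} := by
    rw [isOpen_iff_mem_nhds]
    intro x hx
    have := nhds_ell_r HL (H := H) hx (hnd x) hη (fun i => hc i x)
    filter_upwards [this] with y hy using hy (hT y).1 (hT y).2
  have huniv := IsClopen.eq_univ ⟨hcl, hop⟩ ⟨x0, he⟩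
  intro x
  have : x ∈ {x | ∃ w ∈ EP, H x = EF w} := by rw [huniv]; trivial
  exact this

/-- real-analytic families of tables through a non-circular ellipse -/
theorem analytic_family_r (HL : StLIN) {I : Set ℝ} (hI : IsPreconnected I) (H : ℝ → ℝ → ℝ)
    (hT : ∀ t ∈ I, SmoothTable (H t)) (ha : ∀ s, AnalyticOnNhd ℝ (fun t => H t s) I)
    {t0 : ℝ} (ht0 : t0 ∈ I) (he : ∃ w ∈ EP, H t0 = EF w) (hnd : ¬ IsDisc (H t0))
    (hc : ∀ i : ℕ,
      TendstoUniformly (fun t => iteratedDeriv i (H t)) (iteratedDeriv i (H t0)) (𝓝[I] t0))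
    {η : ℝ} (hη : 0 < η) (hcol : ∃ᶠ t in 𝓝[I \ {t0}] t0, NInt (H t) η) :
    ∀ t ∈ I, ∃ w ∈ EP, H t = EF w := by
  have h1 : ∃ᶠ t in 𝓝[I \ {t0}] t0, Idt (H t) := by
    have h2 := nhds_ell_r HL (l := 𝓝[I] t0) (H := H) he hnd hη hc
    have h3 : ∀ᶠ t in 𝓝[I \ {t0}] t0, SmoothTable (H t) → NInt (H t) η → ∃ w ∈ EP, H t = EF w :=
      h2.filter_mono (nhdsWithin_mono _ Set.diff_subset)
    have h4 : ∀ᶠ t in 𝓝[I \ {t0}] t0, t ∈ I := by
      filter_upwards [self_mem_nhdsWithin] with t ht using ht.1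
    refine (hcol.and_eventually (h3.and h4)).mono ?_
    rintro t ⟨a, b, c⟩
    exact (ell_iff (hT t c)).1 (b (hT t c) a)
  have h2 : ∀ s, Set.EqOn (fun t => pS (H t) s ^ 2 - EQ (par (H t)) s) 0 I := by
    intro s
    have han : AnalyticOnNhd ℝ (fun t => pS (H t) s ^ 2 - EQ (par (H t)) s) I := by
      simp only [EQ_par]
      unfold pC pB pA pS pb pa
      intro t ht
      have a := fun s => ha s t ht
      have a1 := a s
      have a2 := a 0
      have a3 := a Real.pi
      have a4 := a (Real.pi / 2)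
      have a5 := a (3 * (Real.pi / 2))
      have a6 := a (Real.pi / 4)
      fun_prop
    apply han.eqOn_zero_of_preconnected_of_frequently_eq_zero hI ht0
    refine (h1.filter_mono (nhdsWithin_mono _ ?_)).mono fun t ht => ?_
    · intro t ht
      exact ht.2
    · exact sub_eq_zero.2 (ht s)
  intro t ht
  rw [ell_iff (hT t ht)]
  intro s
  exact sub_eq_zero.1 (h2 s ht)

end Vale.Agent.P097.H407
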