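import Vale.Agent.P097.H407.Fin
import Vale.Agent.P097.H407.Red
import Vale.Agent.P097.TOP.Main
import Vale.Agent.P097.PV.FV

set_option linter.all false

/-! # P097 / H407 : the local theorem in `C^k` neighbourhoods -/

namespace Vale.Agent.P097.H407

open Vale.Agent.P097 Vale.Agent.P097.FD Vale.Agent.P097.TOP Filter
open scoped ContDiff Topology

/-- iterated derivatives of an extension -/
theorem strip_iter {β : ℝ} (hβ : 0 < β) (i : ℕ) : ∀ {H : ℂ → ℂ} {h : ℝ → ℝ},
    DifferentiableOn ℂ H {z : ℂ | |z.im| < β} → (∀ x : ℝ, H x = h x) →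
      ∀ x : ℝ, iteratedDeriv i H x = iteratedDeriv i h x := by
  induction i with
  | zero =>
    intro H h _ hh x
    simp [hh]
  | succ i ih =>
    intro H h hH hh x
    rw [iteratedDeriv_succ', iteratedDeriv_succ']
    exact ih (DifferentiableOn.deriv hH (Reg.U6.isOpen_strip β)) (ext_deriv hβ hH hh).2 x

/-- tables with a strip are smooth tables with bounds for all the derivatives -/
theorem smoothBd_of_strip {β M : ℝ} (hβ : 0 < β) (hM : 1 ≤ M) : ∃ A : ℕ → ℝ, ∀ h : ℝ → ℝ,
    StripTab β M h → SmoothBd A (1 / M) h := by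
  refine ⟨fun i => i.factorial * M / (β / 2) ^ i, fun h S => ?_⟩
  have hc := S.contDiff hβ
  obtain ⟨hp, hr, H, hH, hb, hh⟩ := S
  refine ⟨hc, hp, fun x => ?_, fun i x => ?_⟩
  · rw [div_le_iff₀ (by linarith)]
    linarith [hr x]
  · have h1 : ‖iteratedDeriv i H x‖ ≤ i.factorial * M / (β / 2) ^ i := by
      refine Complex.norm_iteratedDeriv_le_of_forall_mem_sphere_norm_le i (by positivity) ?_ ?_
      · refine DifferentiableOn.diffContOnCl (hH.mono ?_)
        intro z hz
        have h2 := Metric.closure_ball_subset_closedBall hz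
        rw [Metric.mem_closedBall, dist_eq_norm] at h2
        have h3 := Complex.abs_im_le_norm (z - x)
        simp only [Complex.sub_im, Complex.ofReal_im, sub_zero] at h3
        show |z.im| < β
        linarith
      · intro z hz
        apply hb
        rw [mem_sphere_iff_norm] at hz
        have h3 := Complex.abs_im_le_norm (z - x)
        simp only [Complex.sub_im, Complex.ofReal_im, sub_zero] at h3
        linarith
    rw [strip_iter hβ i hH hh x] at h1
    rwa [Complex.norm_real, Real.norm_eq_abs] at h1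

/-- the local theorem in a class of tables with a uniform strip -/
theorem open_strip (HO : StOPEN) {v : Fin 5 → ℝ} (hv : v ∈ EP) (hn : v 3 ≠ 0 ∨ v 4 ≠ 0)
    {η β M : ℝ} (hη : 0 < η) (hβ : 0 < β) (hM : 1 ≤ M) : ∃ κ : ℝ, 0 < κ ∧ ∀ h : ℝ → ℝ,
      StripTab β M h → Collar h η → (∀ x, |h x - EF v x| < κ) → ∃ w ∈ EP, h = EF w := by
  obtain ⟨A, hA⟩ := smoothBd_of_strip hβ hM
  obtain ⟨κ, hκ, H⟩ := HO v hv hn η (1 / M) A hη (by positivity)
  exact ⟨κ, hκ, fun h hS hC hd => H h (hA h hS) hC hd⟩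

/-- a continuous periodic function is bounded -/
theorem bdd_periodic {f : ℝ → ℝ} (hc : Continuous f) {P : ℝ} (hP : 0 < P)
    (hp : ∀ x, f (x + P) = f x) : ∃ B : ℝ, ∀ x, |f x| ≤ B := by
  have hper : Function.Periodic f P := hp
  obtain ⟨B, hB⟩ := isCompact_Icc.exists_bound_of_continuousOn
    (s := Set.Icc (0 : ℝ) P) hc.continuousOn
  refine ⟨B, fun x => ?_⟩
  obtain ⟨y, hy, hxy⟩ := hper.exists_mem_Ico₀ hP x
  rw [hxy]
  exact hB y ⟨hy.1, hy.2.le⟩

/-- a continuous positive periodic function is bounded below -/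
theorem low_periodic {f : ℝ → ℝ} (hc : Continuous f) {P : ℝ} (hP : 0 < P)
    (hp : ∀ x, f (x + P) = f x) (h0 : ∀ x, 0 < f x) : ∃ c : ℝ, 0 < c ∧ ∀ x, c ≤ f x := by
  have hper : Function.Periodic f P := hp
  obtain ⟨x0, hx0, hmin⟩ := (isCompact_Icc (a := (0 : ℝ)) (b := P)).exists_isMinOn
    (Set.nonempty_Icc.2 hP.le) hc.continuousOn
  refine ⟨f x0, h0 x0, fun x => ?_⟩
  obtain ⟨y, hy, hxy⟩ := hper.exists_mem_Ico₀ hP x
  rw [hxy]
  exact hmin ⟨hy.1, hy.2.le⟩

theorem iter_per {h : ℝ → ℝ} (hp : ∀ x, h (x + 2 * Real.pi) = h x) (i : ℕ) (x : ℝ) :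
    iteratedDeriv i h (x + 2 * Real.pi) = iteratedDeriv i h x := by
  have h1 := iteratedDeriv_comp_add_const i h (2 * Real.pi)
  have h2 : (fun z => h (z + 2 * Real.pi)) = h := funext hp
  rw [h2] at h1
  exact (congrFun h1 x).symm

/-- `C^k` closeness -/
def CkClose (k : ℕ) (κ : ℝ) (h e : ℝ → ℝ) : Prop :=
  ∀ i ≤ k, ∀ x, |iteratedDeriv i h x - iteratedDeriv i e x| < κ

/-- the local theorem: every non-circular ellipse has a `C^k` neighbourhood in which all the
tables with a collar of width `η` are ellipses -/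
theorem local_Ck (HO : StOPEN) {v : Fin 5 → ℝ} (hv : v ∈ EP) (hn : v 3 ≠ 0 ∨ v 4 ≠ 0)
    {η : ℝ} (hη : 0 < η) : ∃ (k : ℕ) (κ : ℝ), 0 < κ ∧ ∀ h : ℝ → ℝ,
      SmoothTable h → Collar h η → CkClose k κ h (EF v) → ∃ w ∈ EP, h = EF w := by
  have hsm := smoothTable_EF hv
  have hA : ∀ i : ℕ, ∃ B : ℝ, ∀ x, |iteratedDeriv i (EF v) x| ≤ B := fun i =>
    bdd_periodic (hsm.1.continuous_iteratedDeriv i (by exact_mod_cast le_top)) Real.two_pi_pos
      (iter_per hsm.2.1 i)
  choose B hB using hA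
  have hrc : Continuous (fun x => EF v x + deriv (deriv (EF v)) x) := by
    have h2 : Continuous (deriv^[2] (EF v)) := (hsm.1.iterate_deriv 2).continuous
    exact hsm.1.continuous.add h2
  have hrp : ∀ x, (fun x => EF v x + deriv (deriv (EF v)) x) (x + 2 * Real.pi) =
      (fun x => EF v x + deriv (deriv (EF v)) x) x := by
    intro x
    have h2 := iter_per hsm.2.1 2 x
    rw [iteratedDeriv_eq_iterate] at h2
    have h3 : deriv (deriv (EF v)) (x + 2 * Real.pi) = deriv (deriv (EF v)) x := h2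
    simp only [hsm.2.1, h3]
  obtain ⟨c, hc, hcl⟩ := low_periodic hrc Real.two_pi_pos hrp hsm.2.2
  obtain ⟨k, β, M, hβ, hM, HR⟩ := stR_fin η (c / 2) (fun i => B i + 1) hη (by positivity)
  obtain ⟨κ, hκ, H⟩ := open_strip HO hv hn hη hβ hM
  refine ⟨max k 2, min κ (min 1 (c / 4)), by positivity, fun h hs hcol hcl2 => ?_⟩
  have h1 : ∀ i ≤ max k 2, ∀ x, |iteratedDeriv i h x - iteratedDeriv i (EF v) x| < 1 := fun i hi x =>
    lt_of_lt_of_le (hcl2 i hi x) ((min_le_right _ _).trans (min_le_left _ _))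
  have h4 : ∀ i ≤ max k 2, ∀ x, |iteratedDeriv i h x - iteratedDeriv i (EF v) x| < c / 4 :=
    fun i hi x => lt_of_lt_of_le (hcl2 i hi x) ((min_le_right _ _).trans (min_le_right _ _))
  have h0 : ∀ x, |h x - EF v x| < κ := fun x => by
    have := lt_of_lt_of_le (hcl2 0 (Nat.zero_le _) x) (min_le_left _ _)
    simpa using this
  refine H h (HR h hs.1 hs.2.1 (fun x => ?_) (fun i hi x => ?_) hcol) hcol h0
  · have a0 := h4 0 (Nat.zero_le _) x
    have a2 := h4 2 (le_max_right _ _) x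
    rw [iteratedDeriv_zero, iteratedDeriv_zero] at a0
    have e2 : iteratedDeriv 2 h = deriv (deriv h) := by rw [iteratedDeriv_eq_iterate]; rfl
    have e2' : iteratedDeriv 2 (EF v) = deriv (deriv (EF v)) := by
      rw [iteratedDeriv_eq_iterate]; rfl
    rw [e2, e2'] at a2
    have := hcl x
    have b0 := (abs_lt.1 a0).1
    have b2 := (abs_lt.1 a2).1
    linarith
  · have a1 := h1 i (hi.trans (le_max_left _ _)) x
    have a2 := hB i x
    have a3 : |iteratedDeriv i h x| ≤ |iteratedDeriv i h x - iteratedDeriv i (EF v) x| +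
        |iteratedDeriv i (EF v) x| := by
      have := abs_add_le (iteratedDeriv i h x - iteratedDeriv i (EF v) x) (iteratedDeriv i (EF v) x)
      rwa [sub_add_cancel] at this
    linarith

end Vale.Agent.P097.H407
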